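import Vale.Agent.P075.Approx

/-!
P075, Q2: the trilinear integral is `L¹`-continuous on bounded functions, and a bound by the sum of
cubes on dyadic step functions extends, as a product of `L³` norms, to bounded functions.
-/

noncomputable section

open MeasureTheory Set Filter Topology

namespace Vale.Agent.P075

/-- The trilinear integral against three weights. -/
def tri (w : Fin 3 → ℝ → ℝ) (F : Fin 3 → ℝ × ℝ → ℝ) : ℝ :=
  ∫ q : ℝ × ℝ × ℝ, w 0 q.1 * w 1 q.2.1 * w 2 q.2.2 *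
    F 0 (q.1, q.2.1) * F 1 (q.2.1, q.2.2) * F 2 (q.2.2, q.1)

/-- The weights are measurable, bounded by one and supported in sets of measure at most `L`. -/
def GoodWeights (L : ℝ) (w : Fin 3 → ℝ → ℝ) : Prop :=
  ∀ v, Measurable (w v) ∧ ∃ S : Set ℝ, MeasurableSet S ∧ volume S ≠ ⊤ ∧ volume.real S ≤ L ∧
    ∀ x, |w v x| ≤ S.indicator (fun _ => 1) x

/-- Bounded measurable functions supported in the box. -/
def BoxFn (K : ℕ) (M : ℝ) (f : ℝ × ℝ → ℝ) : Prop :=
  Measurable f ∧ (∀ p, |f p| ≤ M) ∧ ∀ p, p ∉ box K → f p = 0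

theorem BoxFn.integrable {K : ℕ} {M : ℝ} {f : ℝ × ℝ → ℝ} (hf : BoxFn K M f) : Integrable f := by
  have hbm : MeasurableSet (box K) := measurableSet_Ico.prod measurableSet_Ico
  have hbf : volume (box K) < ⊤ :=
    (Bornology.IsBounded.prod (Metric.isBounded_Ico _ _) (Metric.isBounded_Ico _ _)).measure_lt_top
  refine Integrable.mono' ((integrable_indicator_iff hbm).2 (integrableOn_const (C := M) hbf.ne))
    hf.1.aestronglyMeasurable (Eventually.of_forall fun p => ?_)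
  by_cases hp : p ∈ box K
  · rw [indicator_of_mem hp]; exact hf.2.1 p
  · rw [indicator_of_notMem hp, hf.2.2 p hp, norm_zero]

theorem BoxFn.zero {K : ℕ} {M : ℝ} (hM : 0 ≤ M) : BoxFn K M 0 :=
  ⟨measurable_zero, fun p => by simpa using hM, fun p _ => rfl⟩

theorem BoxFn.smul {K : ℕ} {M : ℝ} {f : ℝ × ℝ → ℝ} (hf : BoxFn K M f) (c : ℝ) :
    BoxFn K (|c| * M) (fun p => c * f p) :=
  ⟨hf.1.const_mul c, fun p => by rw [abs_mul]; exact mul_le_mul_of_nonneg_left (hf.2.1 p) (abs_nonneg c),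
    fun p hp => by simp [hf.2.2 p hp]⟩

theorem BoxFn.mono {K : ℕ} {M M' : ℝ} {f : ℝ × ℝ → ℝ} (hf : BoxFn K M f) (h : M ≤ M') :
    BoxFn K M' f := ⟨hf.1, fun p => (hf.2.1 p).trans h, hf.2.2⟩

theorem BoxFn.integrable_cube {K : ℕ} {M : ℝ} {f : ℝ × ℝ → ℝ} (hf : BoxFn K M f) :
    Integrable fun p => |f p| ^ 3 :=
  BoxFn.integrable (K := K) (M := M ^ 3) ⟨(measurable_abs.comp hf.1).pow_const 3,
    fun p => by rw [abs_pow, abs_abs]; exact pow_le_pow_left₀ (abs_nonneg _) (hf.2.1 p) 3,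
    fun p hp => by simp [hf.2.2 p hp]⟩

/-- The integrand with one factor `D` and two bounded factors. -/
lemma integrable_sides {L : ℝ} {w : Fin 3 → ℝ → ℝ} (hw : GoodWeights L w) {D : ℝ × ℝ → ℝ}
    (hD : Integrable D) :
    ((Integrable fun q : ℝ × ℝ × ℝ => |D (q.1, q.2.1)| * |w 2 q.2.2|) ∧
      (∫ q : ℝ × ℝ × ℝ, |D (q.1, q.2.1)| * |w 2 q.2.2|) ≤ L * ∫ p, |D p|) ∧
    ((Integrable fun q : ℝ × ℝ × ℝ => |D (q.2.1, q.2.2)| * |w 0 q.1|) ∧
      (∫ q : ℝ × ℝ × ℝ, |D (q.2.1, q.2.2)| * |w 0 q.1|) ≤ L * ∫ p, |D p|) ∧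
    ((Integrable fun q : ℝ × ℝ × ℝ => |D (q.2.2, q.1)| * |w 1 q.2.1|) ∧
      (∫ q : ℝ × ℝ × ℝ, |D (q.2.2, q.1)| * |w 1 q.2.1|) ≤ L * ∫ p, |D p|) := by
  have hwi : ∀ v, Integrable (fun x => |w v x|) ∧ ∫ x, |w v x| ≤ L := by
    intro v
    obtain ⟨hm, S, hS, hSf, hSL, hle⟩ := hw v
    have hi : Integrable (S.indicator fun _ => (1 : ℝ)) :=
      (integrable_indicator_iff hS).2 (integrableOn_const hSf)
    refine ⟨Integrable.mono' hi (measurable_abs.comp hm).aestronglyMeasurable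
      (Eventually.of_forall fun x => by simpa using hle x), ?_⟩
    refine (integral_mono_of_nonneg (Eventually.of_forall fun x => abs_nonneg _) hi
      (Eventually.of_forall hle)).trans ?_
    rw [integral_indicator hS, setIntegral_const, smul_eq_mul, mul_one]
    exact hSL
  have hb : ∀ v, (∫ p, |D p|) * (∫ x, |w v x|) ≤ L * ∫ p, |D p| := fun v => by
    rw [mul_comm L]
    exact mul_le_mul_of_nonneg_left (hwi v).2 (integral_nonneg fun _ => abs_nonneg _)
  -- the three placements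
  let e1 := (MeasurableEquiv.prodAssoc : (ℝ × ℝ) × ℝ ≃ᵐ ℝ × ℝ × ℝ)
  have h1 : MeasurePreserving e1 volume volume :=
    measurePreserving_prodAssoc (volume : Measure ℝ) volume volume
  have i1 : Integrable fun q : ℝ × ℝ × ℝ => |D (q.1, q.2.1)| * |w 2 q.2.2| := by
    rw [← h1.integrable_comp_emb e1.measurableEmbedding]
    exact hD.abs.mul_prod (hwi 2).1
  have i2 : Integrable fun q : ℝ × ℝ × ℝ => |D (q.2.1, q.2.2)| * |w 0 q.1| := by
    simp only [mul_comm (|D _|)]
    exact (hwi 0).1.mul_prod hD.abs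
  let e3 := ((MeasurableEquiv.prodAssoc : (ℝ × ℝ) × ℝ ≃ᵐ ℝ × ℝ × ℝ).trans
    MeasurableEquiv.prodComm).trans (MeasurableEquiv.prodAssoc : (ℝ × ℝ) × ℝ ≃ᵐ ℝ × ℝ × ℝ)
  have h3 : MeasurePreserving e3 volume volume :=
    (h1.trans (Measure.measurePreserving_swap (μ := (volume : Measure ℝ))
      (ν := (volume : Measure (ℝ × ℝ))))).trans h1
  have e3eq : ∀ z x y : ℝ, e3 ((z, x), y) = (x, y, z) := fun z x y => rfl
  have i3 : Integrable fun q : ℝ × ℝ × ℝ => |D (q.2.2, q.1)| * |w 1 q.2.1| := by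
    rw [← h3.integrable_comp_emb e3.measurableEmbedding]
    exact (hD.abs.mul_prod (hwi 1).1).congr (Eventually.of_forall fun _ => rfl)
  refine ⟨⟨i1, ?_⟩, ⟨i2, ?_⟩, ⟨i3, ?_⟩⟩
  · rw [← h1.integral_comp e1.measurableEmbedding]
    refine le_trans (le_of_eq ?_) (hb 2)
    exact integral_prod_mul (fun p => |D p|) fun x => |w 2 x|
  · refine le_trans (le_of_eq ?_) (hb 0)
    rw [mul_comm]
    simp only [mul_comm (|D _|)]
    exact integral_prod_mul (fun x => |w 0 x|) fun p => |D p|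
  · rw [← h3.integral_comp e3.measurableEmbedding]
    refine le_trans (le_of_eq ?_) (hb 1)
    exact integral_prod_mul (fun p => |D p|) fun x => |w 1 x|

/-- `L¹` continuity of the trilinear integral on bounded functions. -/
theorem abs_tri_sub_le {L M : ℝ} {K : ℕ} {w : Fin 3 → ℝ → ℝ} (hw : GoodWeights L w)
    {F G : Fin 3 → ℝ × ℝ → ℝ} (hF : ∀ v, BoxFn K M (F v)) (hG : ∀ v, BoxFn K M (G v)) :
    |tri w F - tri w G| ≤ L * M ^ 2 * ∑ v, ∫ p, |F v p - G v p| := by
  have hM : 0 ≤ M := (abs_nonneg _).trans ((hF 0).2.1 (0, 0))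
  have hD : ∀ v, Integrable fun p => F v p - G v p := fun v =>
    (hF v).integrable.sub (hG v).integrable
  have hm : ∀ v, Measurable (w v) := fun v => (hw v).1
  have hw1 : ∀ v x, |w v x| ≤ 1 := fun v x => by
    obtain ⟨-, S, -, -, -, hle⟩ := hw v
    exact (hle x).trans (indicator_le_self' (fun _ _ => zero_le_one) x)
  have hint : ∀ H : Fin 3 → ℝ × ℝ → ℝ, (∀ v, BoxFn K M (H v)) →
      Integrable fun q : ℝ × ℝ × ℝ => w 0 q.1 * w 1 q.2.1 * w 2 q.2.2 *
        H 0 (q.1, q.2.1) * H 1 (q.2.1, q.2.2) * H 2 (q.2.2, q.1) := by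
    intro H hH
    refine Integrable.mono' ((integrable_sides hw (hH 0).integrable).1.1.const_mul (M ^ 2)) ?_
      (Eventually.of_forall fun q => ?_)
    · have := (hH 0).1; have := (hH 1).1; have := (hH 2).1
      have := hm 0; have := hm 1; have := hm 2
      exact (by fun_prop : Measurable fun q : ℝ × ℝ × ℝ => w 0 q.1 * w 1 q.2.1 * w 2 q.2.2 *
        H 0 (q.1, q.2.1) * H 1 (q.2.1, q.2.2) * H 2 (q.2.2, q.1)).aestronglyMeasurable
    · rw [Real.norm_eq_abs, abs_mul, abs_mul, abs_mul, abs_mul, abs_mul]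
      calc |w 0 q.1| * |w 1 q.2.1| * |w 2 q.2.2| * |H 0 (q.1, q.2.1)| * |H 1 (q.2.1, q.2.2)| *
            |H 2 (q.2.2, q.1)|
          ≤ 1 * 1 * |w 2 q.2.2| * |H 0 (q.1, q.2.1)| * M * M := by
            gcongr
            · exact hw1 0 _
            · exact hw1 1 _
            · exact (hH 1).2.1 _
            · exact (hH 2).2.1 _
        _ = _ := by ring
  obtain ⟨⟨a1, b1⟩, -, -⟩ := integrable_sides hw (hD 0)
  obtain ⟨-, ⟨a2, b2⟩, -⟩ := integrable_sides hw (hD 1)
  obtain ⟨-, -, ⟨a3, b3⟩⟩ := integrable_sides hw (hD 2)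
  rw [tri, tri, ← integral_sub (hint F hF) (hint G hG)]
  refine abs_integral_le_integral_abs.trans
    ((integral_mono_of_nonneg (Eventually.of_forall fun q => abs_nonneg _)
      (((a1.add a2).add a3).const_mul (M ^ 2)) (Eventually.of_forall fun q => ?_)).trans ?_)
  · simp only [Pi.add_apply]
    set u0 := F 0 (q.1, q.2.1)
    set u1 := F 1 (q.2.1, q.2.2)
    set u2 := F 2 (q.2.2, q.1)
    set z0 := G 0 (q.1, q.2.1)
    set z1 := G 1 (q.2.1, q.2.2)
    set z2 := G 2 (q.2.2, q.1)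
    rw [show w 0 q.1 * w 1 q.2.1 * w 2 q.2.2 * u0 * u1 * u2 -
        w 0 q.1 * w 1 q.2.1 * w 2 q.2.2 * z0 * z1 * z2 =
      w 0 q.1 * w 1 q.2.1 * w 2 q.2.2 * (u0 - z0) * u1 * u2 +
      w 0 q.1 * w 1 q.2.1 * w 2 q.2.2 * z0 * (u1 - z1) * u2 +
      w 0 q.1 * w 1 q.2.1 * w 2 q.2.2 * z0 * z1 * (u2 - z2) by ring]
    refine (abs_add_three _ _ _).trans ?_
    simp only [abs_mul]
    have A : ∀ a b c d x y : ℝ, 0 ≤ a → a ≤ 1 → 0 ≤ b → b ≤ 1 → 0 ≤ c → 0 ≤ d → 0 ≤ x → x ≤ M →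
        0 ≤ y → y ≤ M → a * b * c * d * x * y ≤ M ^ 2 * (d * c) := by
      intro a b c d x y ha ha1 hb hb1 hc hd hx hx1 hy hy1
      calc a * b * c * d * x * y ≤ 1 * 1 * c * d * M * M := by gcongr
        _ = M ^ 2 * (d * c) := by ring
    have e1 := A _ _ _ _ _ _ (abs_nonneg (w 0 q.1)) (hw1 0 _) (abs_nonneg (w 1 q.2.1)) (hw1 1 _)
      (abs_nonneg (w 2 q.2.2)) (abs_nonneg (u0 - z0)) (abs_nonneg u1) ((hF 1).2.1 _)
      (abs_nonneg u2) ((hF 2).2.1 _)
    have e2 := A _ _ _ _ _ _ (abs_nonneg (w 1 q.2.1)) (hw1 1 _) (abs_nonneg (w 2 q.2.2)) (hw1 2 _)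
      (abs_nonneg (w 0 q.1)) (abs_nonneg (u1 - z1)) (abs_nonneg z0) ((hG 0).2.1 _)
      (abs_nonneg u2) ((hF 2).2.1 _)
    have e3 := A _ _ _ _ _ _ (abs_nonneg (w 0 q.1)) (hw1 0 _) (abs_nonneg (w 2 q.2.2)) (hw1 2 _)
      (abs_nonneg (w 1 q.2.1)) (abs_nonneg (u2 - z2)) (abs_nonneg z0) ((hG 0).2.1 _)
      (abs_nonneg z1) ((hG 1).2.1 _)
    linarith
  · simp only [Pi.add_apply]
    rw [integral_const_mul, integral_add (f := fun q : ℝ × ℝ × ℝ =>
      |F 0 (q.1, q.2.1) - G 0 (q.1, q.2.1)| * |w 2 q.2.2| +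
        |F 1 (q.2.1, q.2.2) - G 1 (q.2.1, q.2.2)| * |w 0 q.1|) (a1.add a2) a3,
      integral_add a1 a2, Fin.sum_univ_three]
    calc _ ≤ M ^ 2 * (L * (∫ p, |F 0 p - G 0 p|) + L * (∫ p, |F 1 p - G 1 p|) +
          L * ∫ p, |F 2 p - G 2 p|) :=
        mul_le_mul_of_nonneg_left (add_le_add (add_le_add b1 b2) b3) (by positivity)
      _ = _ := by ring

theorem tri_smul (w : Fin 3 → ℝ → ℝ) (c : Fin 3 → ℝ) (F : Fin 3 → ℝ × ℝ → ℝ) :
    tri w (fun v p => c v * F v p) = (∏ v, c v) * tri w F := by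
  rw [tri, tri, ← integral_const_mul, Fin.prod_univ_three]
  congr 1
  funext q
  ring

/-- Refining the mesh of a step function. -/
theorem stepFn_refine (j d : ℕ) (a : ℕ → ℕ → ℝ) :
    stepFn (j + d) (fun m n => a (m / 2 ^ d) (n / 2 ^ d)) = stepFn j a := by
  funext p
  unfold stepFn
  split_ifs with h
  · have e : ∀ x : ℝ, ⌊x * 2 ^ (j + d)⌋₊ / 2 ^ d = ⌊x * 2 ^ j⌋₊ := by
      intro x
      rw [← Nat.floor_div_natCast]
      push_cast
      rw [pow_add, ← mul_assoc, mul_div_assoc, div_self (by positivity), mul_one]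
    simp only [e]
  · rfl

/-- A bound on step functions by the sum of cubes gives a bound on bounded functions by the
product of the `L³` norms. -/
theorem extend_bound {K : ℕ} {C : ℝ} (hC : 0 ≤ C) (Λ : (Fin 3 → ℝ × ℝ → ℝ) → ℝ)
    (hcont : ∃ c : ℝ, ∀ M : ℝ, ∀ F G : Fin 3 → ℝ × ℝ → ℝ, (∀ v, BoxFn K M (F v)) →
      (∀ v, BoxFn K M (G v)) → |Λ F - Λ G| ≤ c * M ^ 2 * ∑ v, ∫ p, |F v p - G v p|)
    (hsmul : ∀ (c : Fin 3 → ℝ) F, Λ (fun v p => c v * F v p) = (∏ v, c v) * Λ F)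
    (hstep : ∀ (j : ℕ) (a : Fin 3 → ℕ → ℕ → ℝ),
      (∀ v m n, ¬(m < 2 ^ (K + j) ∧ n < 2 ^ (K + j)) → a v m n = 0) →
      |Λ fun v => stepFn j (a v)| ≤ C * ∑ v, ∫ p, |stepFn j (a v) p| ^ 3)
    {M : ℝ} {F : Fin 3 → ℝ × ℝ → ℝ} (hF : ∀ v, BoxFn K M (F v)) :
    |Λ F| ≤ 3 * C * ∏ v, (∫ p, |F v p| ^ 3) ^ (1 / 3 : ℝ) := by
  classical
  obtain ⟨c, hc⟩ := hcont
  -- the bound by the sum of cubes
  have key : ∀ (M : ℝ) (F : Fin 3 → ℝ × ℝ → ℝ), (∀ v, BoxFn K M (F v)) →
      |Λ F| ≤ C * ∑ v, ∫ p, |F v p| ^ 3 := by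
    intro M F hF
    have hM : 0 ≤ M := (abs_nonneg _).trans ((hF 0).2.1 (0, 0))
    refine le_of_forall_pos_le_add fun ε hε => ?_
    set T : ℝ := 3 * (|c| + C * 3) * M ^ 2 + 1 with hT
    have hT0 : 0 < T := by positivity
    choose j a haM ha0 hai using fun v =>
      exists_stepFn hM (hF v).1 (hF v).2.1 (hF v).2.2 (div_pos hε hT0)
    set J := Finset.univ.sup j with hJ
    set a' : Fin 3 → ℕ → ℕ → ℝ := fun v m n => a v (m / 2 ^ (J - j v)) (n / 2 ^ (J - j v)) with ha'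
    have hle : ∀ v, j v ≤ J := fun v => Finset.le_sup (Finset.mem_univ v)
    have he : ∀ v, stepFn J (a' v) = stepFn (j v) (a v) := fun v => by
      have := stepFn_refine (j v) (J - j v) (a v)
      rwa [Nat.add_sub_cancel' (hle v)] at this
    have ha'0 : ∀ v m n, ¬(m < 2 ^ (K + J) ∧ n < 2 ^ (K + J)) → a' v m n = 0 := by
      intro v m n h
      refine ha0 v _ _ fun h' => h ?_
      rw [Nat.div_lt_iff_lt_mul (by positivity), Nat.div_lt_iff_lt_mul (by positivity), ← pow_add,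
        show K + j v + (J - j v) = K + J by have := hle v; omega] at h'
      exact h'
    have hG : ∀ v, BoxFn K M (stepFn J (a' v)) := fun v => by
      rw [he v]
      exact ⟨measurable_stepFn _ _, abs_stepFn_le hM (haM v), fun p hp => stepFn_eq_zero (ha0 v) hp⟩
    have h1 := hc M F (fun v => stepFn J (a' v)) hF hG
    have h2 := hstep J a' ha'0
    have hd : ∀ v, ∫ p, |F v p - stepFn J (a' v) p| ≤ ε / T := fun v => by rw [he v]; exact hai v
    have h3 : ∀ v, ∫ p, |stepFn J (a' v) p| ^ 3 ≤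
        (∫ p, |F v p| ^ 3) + 3 * M ^ 2 * (ε / T) := by
      intro v
      have hi : Integrable fun p => |F v p - stepFn J (a' v) p| :=
        ((hF v).integrable.sub (hG v).integrable).abs
      refine (integral_mono (hG v).integrable_cube
        ((hF v).integrable_cube.add (hi.const_mul (3 * M ^ 2))) fun p => ?_).trans ?_
      · simp only [Pi.add_apply]
        have hx := (hF v).2.1 p
        have hy := (hG v).2.1 p
        set x := |F v p|
        set y := |stepFn J (a' v) p|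
        have hxy : y - x ≤ |F v p - stepFn J (a' v) p| := by
          rw [abs_sub_comm]
          exact abs_sub_abs_le_abs_sub _ _
        have hq : y ^ 2 + x * y + x ^ 2 ≤ 3 * M ^ 2 := by
          nlinarith [abs_nonneg (F v p), abs_nonneg (stepFn J (a' v) p)]
        rcases le_total y x with h | h
        · have := pow_le_pow_left₀ (abs_nonneg (stepFn J (a' v) p)) h 3
          nlinarith [abs_nonneg (F v p - stepFn J (a' v) p), sq_nonneg M]
        · have := mul_le_mul hxy hq (by positivity) (abs_nonneg _)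
          nlinarith
      · simp only [Pi.add_apply]
        rw [integral_add (hF v).integrable_cube (hi.const_mul (3 * M ^ 2)), integral_const_mul]
        have := mul_le_mul_of_nonneg_left (hd v) (by positivity : 0 ≤ 3 * M ^ 2)
        linarith
    have hsum : ∑ v, ∫ p, |F v p - stepFn J (a' v) p| ≤ 3 * (ε / T) :=
      (Finset.sum_le_sum fun v _ => hd v).trans (le_of_eq (by simp))
    have hsum3 : ∑ v, ∫ p, |stepFn J (a' v) p| ^ 3 ≤
        (∑ v, ∫ p, |F v p| ^ 3) + 9 * M ^ 2 * (ε / T) :=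
      (Finset.sum_le_sum fun v _ => h3 v).trans (le_of_eq (by
        rw [Finset.sum_add_distrib]; simp; ring))
    have h4 : c * M ^ 2 * ∑ v, ∫ p, |F v p - stepFn J (a' v) p| ≤ |c| * M ^ 2 * (3 * (ε / T)) := by
      refine (mul_le_mul_of_nonneg_right (mul_le_mul_of_nonneg_right (le_abs_self c) (sq_nonneg M))
        (Finset.sum_nonneg fun v _ => integral_nonneg fun p => abs_nonneg _)).trans ?_
      exact mul_le_mul_of_nonneg_left hsum (by positivity)
    have h5 := mul_le_mul_of_nonneg_left hsum3 hC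
    have h6 : T * (ε / T) = ε := by field_simp
    have h7 : 0 ≤ ε / T := by positivity
    have h8 := abs_sub_abs_le_abs_sub (Λ F) (Λ fun v => stepFn J (a' v))
    nlinarith
  set t : Fin 3 → ℝ := fun v => (∫ p, |F v p| ^ 3) ^ (1 / 3 : ℝ) with ht
  have hI : ∀ v, 0 ≤ ∫ p, |F v p| ^ 3 := fun v => integral_nonneg fun p => by positivity
  have ht0 : ∀ v, 0 ≤ t v := fun v => Real.rpow_nonneg (hI v) _
  by_cases hz : ∃ v, t v = 0
  · obtain ⟨v, hv⟩ := hz
    have hae : ∀ᵐ p, F v p = 0 := by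
      have h0 : ∫ p, |F v p| ^ 3 = 0 := (Real.rpow_eq_zero (hI v) (by norm_num)).1 hv
      filter_upwards [(integral_eq_zero_iff_of_nonneg (fun p => by positivity)
        (hF v).integrable_cube).1 h0] with p hp
      simpa using hp
    set G : Fin 3 → ℝ × ℝ → ℝ := fun u p => (if u = v then 0 else 1) * F u p with hG
    have hGB : ∀ u, BoxFn K M (G u) := fun u => by
      have hM : 0 ≤ M := (abs_nonneg _).trans ((hF u).2.1 (0, 0))
      refine ((hF u).smul _).mono ?_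
      split_ifs <;> simp [hM]
    have hzero : ∀ u, ∫ p, |F u p - G u p| = 0 := by
      intro u
      refine integral_eq_zero_of_ae ?_
      by_cases hu : u = v
      · subst hu
        filter_upwards [hae] with p hp
        simp [hG, hp]
      · exact Eventually.of_forall fun p => by simp [hG, hu]
    have h1 := hc M F G hF hGB
    have h2 : Λ G = 0 := by
      rw [hG, hsmul, Finset.prod_eq_zero (Finset.mem_univ v) (by simp), zero_mul]
    simp only [hzero, Finset.sum_const_zero, mul_zero, h2, sub_zero] at h1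
    exact h1.trans (mul_nonneg (by linarith) (Finset.prod_nonneg fun u _ => ht0 u))
  · push Not at hz
    have ht' : ∀ v, 0 < t v := fun v => lt_of_le_of_ne (ht0 v) (hz v).symm
    set G : Fin 3 → ℝ × ℝ → ℝ := fun v p => (t v)⁻¹ * F v p with hG
    set M' : ℝ := ∑ v, |(t v)⁻¹| * |M| with hM'
    have hGB : ∀ v, BoxFn K M' (G v) := fun v => by
      refine (((hF v).mono (le_abs_self M)).smul _).mono ?_
      exact Finset.single_le_sum (f := fun v => |(t v)⁻¹| * |M|) (fun u _ => by positivity)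
        (Finset.mem_univ v)
    have hone : ∀ v, ∫ p, |G v p| ^ 3 = 1 := by
      intro v
      have e : ∀ p, |G v p| ^ 3 = ((t v)⁻¹) ^ 3 * |F v p| ^ 3 := fun p => by
        simp only [hG, abs_mul, mul_pow, abs_of_nonneg (inv_nonneg.2 (ht0 v))]
      rw [integral_congr_ae (Eventually.of_forall e), integral_const_mul]
      have h3 : t v ^ 3 = ∫ p, |F v p| ^ 3 := by
        simp only [ht]
        rw [← Real.rpow_natCast, ← Real.rpow_mul (hI v)]
        norm_num
      rw [← h3, ← mul_pow, inv_mul_cancel₀ (ht' v).ne', one_pow]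
    have h := key M' G hGB
    simp only [hone, Finset.sum_const, Finset.card_univ, Fintype.card_fin] at h
    have hs : Λ F = (∏ v, t v) * Λ G := by
      rw [← hsmul]
      congr 1
      funext v p
      simp only [hG]
      rw [← mul_assoc, mul_inv_cancel₀ (ht' v).ne', one_mul]
    rw [hs, abs_mul, abs_of_nonneg (Finset.prod_nonneg fun v _ => ht0 v)]
    refine (mul_le_mul_of_nonneg_left h (Finset.prod_nonneg fun v _ => ht0 v)).trans (le_of_eq ?_)
    simp only [ht]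
    ring

end Vale.Agent.P075
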