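import Vale.Agent.P075.Pins
import Vale.Agent.P075.Extend

/-!
P075, Q2: from the grid bound and the evaluation on step functions to the integral statement.
-/

noncomputable section

open MeasureTheory Set Filter Topology

namespace Vale.Agent.P075

lemma zpow2_pos (k : ℤ) : (0 : ℝ) < (2 : ℝ) ^ k := zpow_pos two_pos k

lemma dyadic_nonneg {k : ℤ} {n : ℕ} {x : ℝ} (hx : x ∈ dyadic k n) : 0 ≤ x :=
  le_trans (by positivity) hx.1

lemma haar_eq_zero {k : ℤ} {n : ℕ} {x : ℝ} (hx : x ∉ dyadic k n) : haar k n x = 0 := by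
  have h2 := zpow2_pos k
  have a : x ∉ Ico ((2 : ℝ) ^ k * n) ((2 : ℝ) ^ k * (n + 1 / 2)) := fun h =>
    hx ⟨h.1, h.2.trans_le (by gcongr; norm_num)⟩
  have b : x ∉ Ico ((2 : ℝ) ^ k * (n + 1 / 2)) ((2 : ℝ) ^ k * (n + 1)) := fun h =>
    hx ⟨le_trans (by gcongr; norm_num) h.1, h.2⟩
  unfold haar
  rw [indicator_of_notMem a, indicator_of_notMem b, sub_zero]

lemma goodWeights_haar (k : ℤ) (n : Fin 3 → ℕ) :
    GoodWeights ((2 : ℝ) ^ k) fun v => haar k (n v) := by
  intro v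
  have h2 := zpow2_pos k
  refine ⟨?_, dyadic k (n v), measurableSet_Ico, ?_, ?_, fun x => ?_⟩
  · exact (measurable_const.indicator measurableSet_Ico).sub
      (measurable_const.indicator measurableSet_Ico)
  · simp [dyadic, Real.volume_Ico]
  · rw [dyadic, Real.volume_real_Ico_of_le (by gcongr; norm_num)]
    linarith
  · show |haar k (n v) x| ≤ _
    by_cases hx : x ∈ dyadic k (n v)
    · rw [indicator_of_mem hx]
      unfold haar
      simp only [Set.indicator_apply]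
      split_ifs with a b b <;> norm_num
    · rw [indicator_of_notMem hx, haar_eq_zero hx, abs_zero]

lemma formL_eq_tri (k : ℤ) (n0 n1 n2 : ℕ) (F0 F1 F2 : ℝ × ℝ → ℝ) :
    formL k n0 n1 n2 F0 F1 F2
      = (2 : ℝ) ^ (-k) * tri (fun v => haar k (![n0, n1, n2] v)) ![F0, F1, F2] := by
  rw [formL, tri, setIntegral_eq_integral_of_forall_compl_eq_zero fun q hq => ?_]
  · congr 1
    refine integral_congr_ae (Eventually.of_forall fun q => ?_)
    simp only [Matrix.cons_val_zero, Matrix.cons_val_one, Matrix.cons_val]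
    ring
  · simp only [Set.mem_prod, not_and_or] at hq
    rcases hq with h | h | h <;> rw [haar_eq_zero h] <;> simp

/-- The number of intervals of scale `k` meeting the box. -/
def count (K : ℕ) (k : ℤ) : ℕ := ⌈(2 : ℝ) ^ K / (2 : ℝ) ^ k⌉₊

lemma scaleForm_eq_sum {K : ℕ} (k : ℤ) (F : Fin 3 → ℝ × ℝ → ℝ)
    (h0 : ∀ p, p ∉ box K → F 0 p = 0) :
    scaleForm k (F 0) (F 1) (F 2) = ∑ p ∈ Finset.range (count K k) ×ˢ Finset.range (count K k),
      formL k p.1 p.2 (p.1 ^^^ p.2) (F 0) (F 1) (F 2) := by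
  refine tsum_eq_sum fun p hp => ?_
  have hout : ∀ n x, count K k ≤ n → x ∈ dyadic k n → (2 : ℝ) ^ K ≤ x := by
    intro n x hn hx
    have h : (2 : ℝ) ^ K / (2 : ℝ) ^ k ≤ n := (Nat.le_ceil _).trans (Nat.cast_le.2 hn)
    rw [div_le_iff₀ (zpow2_pos k), mul_comm] at h
    exact h.trans hx.1
  rw [formL, setIntegral_eq_zero_of_forall_eq_zero, mul_zero]
  intro x hx
  simp only [Finset.mem_product, Finset.mem_range, not_and_or, not_lt] at hp
  have : F 0 (x.1, x.2.1) = 0 := h0 _ fun hb => by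
    rcases hp with h | h
    · exact (hout _ _ h hx.1).not_gt hb.1.2
    · exact (hout _ _ h hx.2.1).not_gt hb.2.2
  simp [this]

/-- The weighted sum of the scales. -/
def total (K : ℕ) (S : Finset ℤ) (ε : ℤ → ℝ) (F : Fin 3 → ℝ × ℝ → ℝ) : ℝ :=
  ∑ k ∈ S, ε k * ∑ p ∈ Finset.range (count K k) ×ˢ Finset.range (count K k),
    formL k p.1 p.2 (p.1 ^^^ p.2) (F 0) (F 1) (F 2)

lemma vec3_eq (F : Fin 3 → ℝ × ℝ → ℝ) : ![F 0, F 1, F 2] = F := by
  funext v; fin_cases v <;> rfl

lemma total_cont (K : ℕ) (S : Finset ℤ) (ε : ℤ → ℝ) :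
    ∃ c : ℝ, ∀ M : ℝ, ∀ F G : Fin 3 → ℝ × ℝ → ℝ, (∀ v, BoxFn K M (F v)) →
      (∀ v, BoxFn K M (G v)) →
      |total K S ε F - total K S ε G| ≤ c * M ^ 2 * ∑ v, ∫ p, |F v p - G v p| := by
  refine ⟨∑ k ∈ S, |ε k| * ((count K k : ℝ) * count K k), fun M F G hF hG => ?_⟩
  set D := ∑ v, ∫ p, |F v p - G v p|
  rw [total, total, ← Finset.sum_sub_distrib, Finset.sum_mul, Finset.sum_mul]
  refine (Finset.abs_sum_le_sum_abs _ _).trans (Finset.sum_le_sum fun k _ => ?_)
  rw [← mul_sub, abs_mul, mul_assoc, mul_assoc, ← Finset.sum_sub_distrib]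
  refine mul_le_mul_of_nonneg_left ((Finset.abs_sum_le_sum_abs _ _).trans ?_) (abs_nonneg _)
  have hp : ∀ p : ℕ × ℕ, |formL k p.1 p.2 (p.1 ^^^ p.2) (F 0) (F 1) (F 2) -
      formL k p.1 p.2 (p.1 ^^^ p.2) (G 0) (G 1) (G 2)| ≤ M ^ 2 * D := by
    intro p
    rw [formL_eq_tri, formL_eq_tri, vec3_eq, vec3_eq, ← mul_sub, abs_mul,
      abs_of_pos (zpow2_pos (-k))]
    refine (mul_le_mul_of_nonneg_left
      (abs_tri_sub_le (goodWeights_haar k ![p.1, p.2, p.1 ^^^ p.2]) hF hG) (zpow2_pos (-k)).le).trans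
      (le_of_eq ?_)
    rw [← mul_assoc, ← mul_assoc, ← zpow_add₀ two_ne_zero, neg_add_cancel, zpow_zero, one_mul]
  refine (Finset.sum_le_sum fun p _ => hp p).trans (le_of_eq ?_)
  rw [Finset.sum_const, Finset.card_product, Finset.card_range, nsmul_eq_mul]
  push_cast
  ring

lemma total_smul (K : ℕ) (S : Finset ℤ) (ε : ℤ → ℝ) (c : Fin 3 → ℝ) (F : Fin 3 → ℝ × ℝ → ℝ) :
    total K S ε (fun v p => c v * F v p) = (∏ v, c v) * total K S ε F := by
  simp only [total, formL_eq_tri]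
  rw [Finset.mul_sum]
  refine Finset.sum_congr rfl fun k _ => ?_
  rw [Finset.mul_sum, Finset.mul_sum, Finset.mul_sum]
  refine Finset.sum_congr rfl fun p _ => ?_
  rw [vec3_eq (fun v q => c v * F v q), vec3_eq F, tri_smul]
  ring

lemma integral_stepFn {N j : ℕ} (b : ℕ → ℕ → ℝ)
    (hb : ∀ m n, ¬(m < N ∧ n < N) → b m n = 0) :
    ∫ p, stepFn j b p = (∑ m ∈ Finset.range N, ∑ n ∈ Finset.range N, b m n) / (2 ^ j * 2 ^ j) := by
  have h2 : (0 : ℝ) < 2 ^ j := by positivity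
  set sq : ℕ → ℕ → Set (ℝ × ℝ) := fun m n =>
    Ico ((m : ℝ) / 2 ^ j) (((m : ℝ) + 1) / 2 ^ j) ×ˢ Ico ((n : ℝ) / 2 ^ j) (((n : ℝ) + 1) / 2 ^ j)
    with hsq
  have hmem : ∀ (x : ℝ) (m : ℕ),
      x ∈ Ico ((m : ℝ) / 2 ^ j) (((m : ℝ) + 1) / 2 ^ j) ↔ 0 ≤ x ∧ ⌊x * 2 ^ j⌋₊ = m := by
    intro x m
    rw [mem_Ico, div_le_iff₀ h2, lt_div_iff₀ h2]
    constructor
    · intro h
      have hx : 0 ≤ x * 2 ^ j := le_trans (Nat.cast_nonneg m) h.1
      exact ⟨nonneg_of_mul_nonneg_left hx h2, (Nat.floor_eq_iff hx).2 h⟩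
    · rintro ⟨hx, rfl⟩
      exact (Nat.floor_eq_iff (by positivity)).1 rfl
  have hsum : stepFn j b = fun p =>
      ∑ q ∈ Finset.range N ×ˢ Finset.range N, (sq q.1 q.2).indicator (fun _ => b q.1 q.2) p := by
    funext p
    have hne : ∀ q : ℕ × ℕ, ¬((0 ≤ p.1 ∧ 0 ≤ p.2) ∧ ⌊p.1 * 2 ^ j⌋₊ = q.1 ∧
        ⌊p.2 * 2 ^ j⌋₊ = q.2) → (sq q.1 q.2).indicator (fun _ => b q.1 q.2) p = 0 := fun q hq =>
      indicator_of_notMem (fun h => hq ⟨⟨((hmem _ _).1 h.1).1, ((hmem _ _).1 h.2).1⟩,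
        ((hmem _ _).1 h.1).2, ((hmem _ _).1 h.2).2⟩) _
    unfold stepFn
    split_ifs with h
    · set q0 : ℕ × ℕ := (⌊p.1 * 2 ^ j⌋₊, ⌊p.2 * 2 ^ j⌋₊) with hq0
      rw [Finset.sum_eq_single q0 (fun q _ hq => hne q fun h' => hq (Prod.ext h'.2.1.symm h'.2.2.symm))
        (fun hq => by
          simp only [Finset.mem_product, Finset.mem_range] at hq
          simp [hb _ _ hq])]
      exact (indicator_of_mem (show p ∈ sq q0.1 q0.2 from
        ⟨(hmem _ _).2 ⟨h.1, rfl⟩, (hmem _ _).2 ⟨h.2, rfl⟩⟩) (fun _ => b q0.1 q0.2)).symm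
    · exact (Finset.sum_eq_zero fun q _ => hne q fun h' => h h'.1).symm
  have hmeas : ∀ m n, MeasurableSet (sq m n) := fun m n => measurableSet_Ico.prod measurableSet_Ico
  have hfin : ∀ m n, volume (sq m n) ≠ ⊤ := fun m n =>
    (Bornology.IsBounded.prod (Metric.isBounded_Ico _ _) (Metric.isBounded_Ico _ _)).measure_lt_top.ne
  rw [hsum, integral_finsetSum _ fun q _ =>
    (integrable_indicator_iff (hmeas _ _)).2 (integrableOn_const (hfin _ _)), ← Finset.sum_product',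
    Finset.sum_div]
  refine Finset.sum_congr rfl fun q _ => ?_
  rw [integral_indicator (hmeas _ _), setIntegral_const, smul_eq_mul, hsq]
  have hlen : ∀ a : ℝ, volume.real (Ico (a / 2 ^ j) ((a + 1) / 2 ^ j)) = 1 / 2 ^ j := fun a => by
    rw [Real.volume_real_Ico_of_le (by gcongr; linarith)]
    ring
  simp only [Measure.volume_eq_prod, measureReal_prod_prod, hlen]
  ring

theorem analysis : Analysis := by
  intro hgrid heval
  obtain ⟨Kg, hKg⟩ := hgrid
  set C := max Kg 0 with hC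
  refine ⟨3 * C, fun S ε hε F0 F1 F2 hA0 hA1 hA2 => ?_⟩
  classical
  set F : Fin 3 → ℝ × ℝ → ℝ := ![F0, F1, F2] with hFdef
  have hA : ∀ v, Admissible (F v) := fun v => by fin_cases v <;> assumption
  choose M hM using fun v => (hA v).2.1
  choose R hR using fun v => (hA v).2.2.isCompact.isBounded.subset_closedBall (0 : ℝ × ℝ)
  obtain ⟨K, hK⟩ := pow_unbounded_of_one_lt (|R 0| + |R 1| + |R 2| : ℝ) one_lt_two
  set G : Fin 3 → ℝ × ℝ → ℝ := fun v => quadrant.indicator (F v) with hG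
  have hq : MeasurableSet quadrant := measurableSet_Ici.prod measurableSet_Ici
  have hGB : ∀ v, BoxFn K (|M 0| + |M 1| + |M 2|) (G v) := by
    intro v
    refine ⟨(hA v).1.indicator hq, fun p => ?_, fun p hp => ?_⟩
    · refine (Real.norm_eq_abs _).symm.le.trans ((norm_indicator_le_norm_self _ _).trans ?_)
      rw [Real.norm_eq_abs]
      refine (hM v p).trans ?_
      match v with
      | 0 | 1 | 2 =>
        linarith [abs_nonneg (M 0), abs_nonneg (M 1), abs_nonneg (M 2), le_abs_self (M 0),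
          le_abs_self (M 1), le_abs_self (M 2)]
    · by_cases hpq : p ∈ quadrant
      · rw [hG]; dsimp only
        rw [indicator_of_mem hpq]
        refine image_eq_zero_of_notMem_tsupport fun h => hp ?_
        have h1 := mem_closedBall_zero_iff.1 (hR v h)
        have h2 : R v ≤ |R 0| + |R 1| + |R 2| := by
          match v with
          | 0 | 1 | 2 =>
            linarith [abs_nonneg (R 0), abs_nonneg (R 1), abs_nonneg (R 2), le_abs_self (R 0),
              le_abs_self (R 1), le_abs_self (R 2)]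
        have h3 : ‖p.1‖ ≤ ‖p‖ := norm_fst_le p
        have h4 : ‖p.2‖ ≤ ‖p‖ := norm_snd_le p
        rw [Real.norm_eq_abs] at h3 h4
        exact ⟨⟨hpq.1, by linarith [le_abs_self p.1]⟩, hpq.2, by linarith [le_abs_self p.2]⟩
      · exact indicator_of_notMem hpq _
  have hcongr : ∀ k n0 n1 n2, formL k n0 n1 n2 F0 F1 F2 = formL k n0 n1 n2 (G 0) (G 1) (G 2) := by
    intro k n0 n1 n2
    rw [formL, formL]
    refine congrArg _ (setIntegral_congr_fun
      (measurableSet_Ico.prod (measurableSet_Ico.prod measurableSet_Ico)) fun x hx => ?_)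
    have q0 : (x.1, x.2.1) ∈ quadrant := ⟨dyadic_nonneg hx.1, dyadic_nonneg hx.2.1⟩
    have q1 : (x.2.1, x.2.2) ∈ quadrant := ⟨dyadic_nonneg hx.2.1, dyadic_nonneg hx.2.2⟩
    have q2 : (x.2.2, x.1) ∈ quadrant := ⟨dyadic_nonneg hx.2.2, dyadic_nonneg hx.1⟩
    simp [hG, hFdef, indicator_of_mem q0, indicator_of_mem q1, indicator_of_mem q2]
  have htot : ∑ k ∈ S, ε k * scaleForm k F0 F1 F2 = total K S ε G := by
    refine Finset.sum_congr rfl fun k _ => ?_
    rw [show scaleForm k F0 F1 F2 = scaleForm k (G 0) (G 1) (G 2) from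
      tsum_congr fun p => hcongr k _ _ _, scaleForm_eq_sum k G (hGB 0).2.2]
  have hstep : ∀ (j : ℕ) (a : Fin 3 → ℕ → ℕ → ℝ),
      (∀ v m n, ¬(m < 2 ^ (K + j) ∧ n < 2 ^ (K + j)) → a v m n = 0) →
      |total K S ε fun v => stepFn j (a v)| ≤ C * ∑ v, ∫ p, |stepFn j (a v) p| ^ 3 := by
    intro j a ha
    set N : ℕ := K + j + S.sup (fun k => (k + j).toNat) with hN
    set δ : ℝ := (2 : ℝ) ^ (-(j : ℤ)) with hδ
    have hδe : δ = (2 ^ j : ℝ)⁻¹ := by rw [hδ, zpow_neg, zpow_natCast]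
    have hz : ∀ v m n, ¬(m < 2 ^ N ∧ n < 2 ^ N) → a v m n = 0 := fun v m n h =>
      ha v m n fun h' => h ⟨h'.1.trans_le (Nat.pow_le_pow_right (by norm_num) (by omega)),
        h'.2.trans_le (Nat.pow_le_pow_right (by norm_num) (by omega))⟩
    have he : ∀ v, stepFn j (a v) = stepFun δ N (a v) := by
      intro v; funext p
      have hd : ∀ x : ℝ, x / δ = x * 2 ^ j := fun x => by rw [hδe, div_inv_eq_mul]
      unfold stepFn stepFun
      simp only [hd]
      by_cases h : 0 ≤ p.1 ∧ 0 ≤ p.2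
      · rw [if_pos h]
        split_ifs with h'
        · rfl
        · refine hz v _ _ fun hh => h' ?_
          rw [Nat.floor_lt (by have := h.1; positivity), Nat.floor_lt (by have := h.2; positivity)] at hh
          push_cast at hh
          refine ⟨h.1, ?_, h.2, ?_⟩ <;> rw [hδe, ← div_eq_mul_inv, lt_div_iff₀ (by positivity)]
          exacts [hh.1, hh.2]
      · rw [if_neg h, if_neg fun h' => h ⟨h'.1, h'.2.2.1⟩]
    set f := fun k : ℤ => scaleForm k (stepFn j (a 0)) (stepFn j (a 1)) (stepFn j (a 2)) with hf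
    have hsc : total K S ε (fun v => stepFn j (a v)) = ∑ k ∈ S, ε k * f k :=
      Finset.sum_congr rfl fun k _ => by
        rw [hf]; dsimp only
        rw [scaleForm_eq_sum k (fun v => stepFn j (a v)) fun p hp => stepFn_eq_zero (ha 0) hp]
    obtain ⟨hfine, hcoarse⟩ := heval (-(j : ℤ)) N (a 0) (a 1) (a 2)
    simp only [← hδ, ← he] at hfine hcoarse
    rw [hsc]
    refine ((Finset.abs_sum_le_sum_abs _ _).trans (Finset.sum_le_sum fun k hk =>
      show |ε k * f k| ≤ |f k| by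
        rw [abs_mul]; exact mul_le_of_le_one_left (abs_nonneg _) (hε k hk))).trans ?_
    have hsplit : ∑ k ∈ S, |f k| ≤ ∑ t ∈ Finset.range N, |f (-(j : ℤ) + (t + 1 : ℕ))| := by
      rw [← Finset.sum_filter_add_sum_filter_not S (fun k => -(j : ℤ) < k),
        Finset.sum_eq_zero (s := S.filter fun k => ¬-(j : ℤ) < k) fun k hk => by
          rw [Finset.mem_filter] at hk
          rw [hf]; dsimp only
          rw [hfine k (le_of_not_gt hk.2), abs_zero], add_zero]
      rw [← Finset.sum_image (f := fun k => |f k|) (g := fun t : ℕ => -(j : ℤ) + (t + 1 : ℕ))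
        fun x _ y _ h => by simpa using h]
      refine Finset.sum_le_sum_of_subset_of_nonneg (fun k hk => ?_) fun _ _ _ => abs_nonneg _
      rw [Finset.mem_filter] at hk
      have hle : (k + j).toNat ≤ S.sup (fun k => (k + (j : ℤ)).toNat) :=
        Finset.le_sup (f := fun k => (k + (j : ℤ)).toNat) hk.1
      refine Finset.mem_image.2 ⟨(k + j).toNat - 1, Finset.mem_range.2 ?_, ?_⟩
      · have : 0 < (k + j).toNat := by omega
        omega
      · have : 0 < (k + j).toNat := by omega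
        omega
    refine hsplit.trans ?_
    have hterm : ∑ t ∈ Finset.range N, |f (-(j : ℤ) + (t + 1 : ℕ))|
        = (2 : ℝ) ^ (2 * -(j : ℤ)) * ∑ t ∈ Finset.range N,
          |∑ x ∈ Finset.range (2 ^ (N - (t + 1))), ∑ y ∈ Finset.range (2 ^ (N - (t + 1))),
            gridTerm (a 0) (a 1) (a 2) t x y| / (2 : ℝ) ^ (t + 1) := by
      rw [Finset.mul_sum]
      refine Finset.sum_congr rfl fun t ht => ?_
      rw [hf]; dsimp only
      rw [hcoarse t (Finset.mem_range.1 ht), abs_mul, abs_of_pos (zpow2_pos _), abs_div,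
        abs_of_pos (by positivity : (0 : ℝ) < 2 ^ (t + 1))]
    rw [hterm]
    have hd : (2 : ℝ) ^ (2 * -(j : ℤ)) = 1 / (2 ^ j * 2 ^ j) := by
      rw [two_mul, zpow_add₀ two_ne_zero, zpow_neg, zpow_natCast]; ring
    have hint : ∀ v, ∫ p, |stepFn j (a v) p| ^ 3
        = (∑ m ∈ Finset.range (2 ^ N), ∑ n ∈ Finset.range (2 ^ N), |a v m n| ^ 3)
          / (2 ^ j * 2 ^ j) := by
      intro v
      rw [← integral_stepFn (fun m n => |a v m n| ^ 3) fun m n h => by simp [hz v m n h]]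
      refine integral_congr_ae (Eventually.of_forall fun p => ?_)
      simp only [stepFn]
      split_ifs <;> simp
    refine (mul_le_mul_of_nonneg_left ((hKg N (a 0) (a 1) (a 2)).trans
      (mul_le_mul_of_nonneg_right (le_max_left Kg 0) (Finset.sum_nonneg fun m _ =>
        Finset.sum_nonneg fun n _ => by positivity))) (zpow2_pos _).le).trans (le_of_eq ?_)
    simp only [hint, Fin.sum_univ_three, hd, ← hC, Finset.sum_add_distrib]
    ring
  have h := extend_bound (le_max_right Kg 0) (total K S ε) (total_cont K S ε) (total_smul K S ε)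
    hstep hGB
  rw [htot]
  refine h.trans (le_of_eq ?_)
  have e : ∀ v, cube3 (F v) = ∫ p, |G v p| ^ 3 := by
    intro v
    rw [cube3, ← integral_indicator hq]
    refine integral_congr_ae (Eventually.of_forall fun p => ?_)
    by_cases hp : p ∈ quadrant <;> simp [hG, hp]
  rw [Fin.prod_univ_three, ← e, ← e, ← e]
  simp [hFdef, hC]

end Vale.Agent.P075
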