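import Mathlib

/-!
P075, Q2: approximation of bounded functions supported in a dyadic square by dyadic step functions,
in `L¹` and with the same bound and support.
-/

noncomputable section

open MeasureTheory Set Filter Topology

namespace Vale.Agent.P075

/-- The box `[0, 2^K)²`. -/
def box (K : ℕ) : Set (ℝ × ℝ) := Ico (0 : ℝ) (2 ^ K) ×ˢ Ico (0 : ℝ) (2 ^ K)

/-- The step function with value `a m n` on the square of mesh `2^(-j)` with index `(m, n)`. -/
def stepFn (j : ℕ) (a : ℕ → ℕ → ℝ) (p : ℝ × ℝ) : ℝ :=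
  if 0 ≤ p.1 ∧ 0 ≤ p.2 then a ⌊p.1 * 2 ^ j⌋₊ ⌊p.2 * 2 ^ j⌋₊ else 0

lemma floor_lt {K j : ℕ} {x : ℝ} (hx : 0 ≤ x) :
    ⌊x * 2 ^ j⌋₊ < 2 ^ (K + j) ↔ x < 2 ^ K := by
  rw [Nat.floor_lt (by positivity)]
  push_cast
  rw [pow_add, mul_lt_mul_iff_left₀ (by positivity)]

lemma abs_floor_div_sub {j : ℕ} {x : ℝ} (hx : 0 ≤ x) :
    |(⌊x * 2 ^ j⌋₊ : ℝ) / 2 ^ j - x| ≤ 1 / 2 ^ j := by
  have h2 : (0 : ℝ) < 2 ^ j := by positivity
  have e : (⌊x * 2 ^ j⌋₊ : ℝ) / 2 ^ j - x = ((⌊x * 2 ^ j⌋₊ : ℝ) - x * 2 ^ j) / 2 ^ j := by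
    field_simp
  rw [e, abs_div, abs_of_pos h2]
  gcongr
  rw [abs_le]
  have := Nat.floor_le (show 0 ≤ x * 2 ^ j by positivity)
  have := Nat.lt_floor_add_one (x * 2 ^ j)
  constructor <;> linarith

lemma measurable_stepFn (j : ℕ) (a : ℕ → ℕ → ℝ) : Measurable (stepFn j a) := by
  unfold stepFn
  refine Measurable.ite ?_ ?_ measurable_const
  · exact (measurableSet_le measurable_const measurable_fst).inter
      (measurableSet_le measurable_const measurable_snd)
  · exact (measurable_of_countable (fun q : ℕ × ℕ => a q.1 q.2)).comp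
      (((measurable_fst.mul_const _).nat_floor).prodMk ((measurable_snd.mul_const _).nat_floor))

lemma abs_stepFn_le {j : ℕ} {a : ℕ → ℕ → ℝ} {M : ℝ} (hM : 0 ≤ M) (ha : ∀ m n, |a m n| ≤ M)
    (p : ℝ × ℝ) : |stepFn j a p| ≤ M := by
  unfold stepFn
  split_ifs
  · exact ha _ _
  · simpa using hM

lemma stepFn_eq_zero {K j : ℕ} {a : ℕ → ℕ → ℝ}
    (ha : ∀ m n, ¬(m < 2 ^ (K + j) ∧ n < 2 ^ (K + j)) → a m n = 0) {p : ℝ × ℝ} (hp : p ∉ box K) :
    stepFn j a p = 0 := by
  unfold stepFn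
  split_ifs with h
  · refine ha _ _ fun h' => hp ?_
    rw [floor_lt h.1, floor_lt h.2] at h'
    exact ⟨⟨h.1, h'.1⟩, h.2, h'.2⟩
  · rfl

/-- Bounded functions on a box are `L¹` limits of dyadic step functions. -/
theorem exists_stepFn {K : ℕ} {M : ℝ} (hM : 0 ≤ M) {f : ℝ × ℝ → ℝ} (hf : Measurable f)
    (hfM : ∀ p, |f p| ≤ M) (hfs : ∀ p, p ∉ box K → f p = 0) {ε : ℝ} (hε : 0 < ε) :
    ∃ (j : ℕ) (a : ℕ → ℕ → ℝ), (∀ m n, |a m n| ≤ M) ∧
      (∀ m n, ¬(m < 2 ^ (K + j) ∧ n < 2 ^ (K + j)) → a m n = 0) ∧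
      ∫ p, |f p - stepFn j a p| ≤ ε := by
  classical
  have hbm : MeasurableSet (box K) := measurableSet_Ico.prod measurableSet_Ico
  have hbf : volume (box K) < ⊤ :=
    (Bornology.IsBounded.prod (Metric.isBounded_Ico _ _) (Metric.isBounded_Ico _ _)).measure_lt_top
  have hdom : ∀ F : ℝ × ℝ → ℝ, Measurable F → ∀ C : ℝ, (∀ p, |F p| ≤ C) →
      (∀ p, p ∉ box K → F p = 0) → Integrable F := by
    intro F hF C hC h0
    refine Integrable.mono' ((integrable_indicator_iff hbm).2 (integrableOn_const (C := C) hbf.ne))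
      hF.aestronglyMeasurable (Eventually.of_forall fun p => ?_)
    by_cases hp : p ∈ box K
    · rw [indicator_of_mem hp]; exact hC p
    · rw [indicator_of_notMem hp, h0 p hp, norm_zero]
  obtain ⟨g, hgc, hgf, hgcont, hgi⟩ :=
    (hdom f hf M hfM hfs).exists_hasCompactSupport_integral_sub_le (half_pos hε)
  set clip : ℝ → ℝ := fun t => max (-M) (min M t) with hclip
  have hcl : ∀ s t, |clip s - clip t| ≤ |s - t| := fun s t => by
    refine (abs_max_sub_max_le_max _ _ _ _).trans (max_le (by simp) ?_)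
    exact (abs_min_sub_min_le_max _ _ _ _).trans (max_le (by simp) le_rfl)
  have hclM : ∀ t, |clip t| ≤ M := fun t =>
    abs_le.2 ⟨le_max_left _ _, max_le (by linarith) (min_le_left _ _)⟩
  have hclf : ∀ p, clip (f p) = f p := fun p => by
    have h := abs_le.1 (hfM p)
    simp only [hclip, min_eq_right h.2, max_eq_right h.1]
  set h : ℝ × ℝ → ℝ := fun p => clip (g p) with hh
  have hhu : UniformContinuous h := by
    have : LipschitzWith 1 clip := LipschitzWith.of_dist_le_mul fun s t => by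
      simpa [Real.dist_eq] using hcl s t
    exact this.uniformContinuous.comp (hgc.uniformContinuous_of_continuous hgcont)
  set V : ℝ := (volume (box K)).toReal + 1 with hV
  have hV0 : 0 < V := by positivity
  obtain ⟨δ, hδ, hδh⟩ := Metric.uniformContinuous_iff.1 hhu (ε / 2 / V) (by positivity)
  obtain ⟨j, hj⟩ := exists_pow_lt_of_lt_one hδ (show (1 / 2 : ℝ) < 1 by norm_num)
  set a : ℕ → ℕ → ℝ := fun m n =>
    if m < 2 ^ (K + j) ∧ n < 2 ^ (K + j) then h ((m : ℝ) / 2 ^ j, (n : ℝ) / 2 ^ j) else 0 with ha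
  have ha0 : ∀ m n, ¬(m < 2 ^ (K + j) ∧ n < 2 ^ (K + j)) → a m n = 0 := fun m n hmn => if_neg hmn
  have haM : ∀ m n, |a m n| ≤ M := fun m n => by
    simp only [ha]; split_ifs
    · exact hclM _
    · simpa using hM
  refine ⟨j, a, haM, ha0, ?_⟩
  have hi : Integrable fun p => |f p - g p| + (box K).indicator (fun _ => ε / 2 / V) p :=
    ((hdom f hf M hfM hfs).sub hgi).abs.add
      ((integrable_indicator_iff hbm).2 (integrableOn_const hbf.ne))
  refine (integral_mono_of_nonneg (Eventually.of_forall fun p => abs_nonneg _) hi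
    (Eventually.of_forall fun p => ?_)).trans ?_
  · dsimp only
    by_cases hp : p ∈ box K
    · rw [indicator_of_mem hp]
      obtain ⟨⟨hx0, hx1⟩, hy0, hy1⟩ := hp
      have e : stepFn j a p
          = h ((⌊p.1 * 2 ^ j⌋₊ : ℝ) / 2 ^ j, (⌊p.2 * 2 ^ j⌋₊ : ℝ) / 2 ^ j) := by
        rw [stepFn, if_pos ⟨hx0, hy0⟩]
        simp only [ha]
        rw [if_pos ⟨(floor_lt hx0).2 hx1, (floor_lt hy0).2 hy1⟩]
      have hd := hδh (a := ((⌊p.1 * 2 ^ j⌋₊ : ℝ) / 2 ^ j, (⌊p.2 * 2 ^ j⌋₊ : ℝ) / 2 ^ j)) (b := p) (by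
        rw [Prod.dist_eq, Real.dist_eq, Real.dist_eq]
        have h2 : (1 : ℝ) / 2 ^ j < δ := by simpa [div_pow] using hj
        exact max_lt ((abs_floor_div_sub hx0).trans_lt h2) ((abs_floor_div_sub hy0).trans_lt h2))
      rw [Real.dist_eq] at hd
      rw [e]
      have h1 := hcl (f p) (g p)
      rw [hclf p] at h1
      calc |f p - h _| ≤ |f p - h p| + |h p - h _| := abs_sub_le _ _ _
        _ ≤ _ := add_le_add h1 (by rw [abs_sub_comm]; exact hd.le)
    · rw [indicator_of_notMem hp, stepFn_eq_zero ha0 hp, hfs p hp]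
      simp
  · have hfg : Integrable fun p => |f p - g p| := ((hdom f hf M hfM hfs).sub hgi).abs
    rw [integral_add hfg
      ((integrable_indicator_iff hbm).2 (integrableOn_const hbf.ne)), integral_indicator hbm,
      setIntegral_const, smul_eq_mul]
    have h1 : ∫ p, |f p - g p| ≤ ε / 2 := by simpa [Real.norm_eq_abs] using hgf
    have h2 : volume.real (box K) * (ε / 2 / V) ≤ ε / 2 := by
      rw [← mul_div_assoc, div_le_iff₀ hV0, mul_comm (ε / 2)]
      exact mul_le_mul_of_nonneg_right (by simp [hV, Measure.real]) (half_pos hε).le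
    linarith

end Vale.Agent.P075
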