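import Mathlib

/-!
P075, dyadic triangular Hilbert form: the objects of the problem's second question.
-/

noncomputable section

namespace Vale.Agent.P075

open MeasureTheory Set

/-- The dyadic interval `[2 ^ k n, 2 ^ k (n + 1))`. -/
def dyadic (k : ℤ) (n : ℕ) : Set ℝ := Ico ((2 : ℝ) ^ k * n) ((2 : ℝ) ^ k * (n + 1))

/-- `h_I` for `I = dyadic k n`: one on the left half, minus one on the right half, zero outside. -/
def haar (k : ℤ) (n : ℕ) (x : ℝ) : ℝ :=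
  (Ico ((2 : ℝ) ^ k * n) ((2 : ℝ) ^ k * (n + 1 / 2))).indicator (fun _ => 1) x
    - (Ico ((2 : ℝ) ^ k * (n + 1 / 2)) ((2 : ℝ) ^ k * (n + 1))).indicator (fun _ => 1) x

/-- `L_I` for the triple of intervals of scale `k` with indices `n0, n1, n2`. -/
def formL (k : ℤ) (n0 n1 n2 : ℕ) (F0 F1 F2 : ℝ × ℝ → ℝ) : ℝ :=
  (2 : ℝ) ^ (-k) * ∫ x in dyadic k n0 ×ˢ dyadic k n1 ×ˢ dyadic k n2,
    F0 (x.1, x.2.1) * F1 (x.2.1, x.2.2) * F2 (x.2.2, x.1) *
      (haar k n0 x.1 * haar k n1 x.2.1 * haar k n2 x.2.2)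

/-- The sum of `L_I` over the triples of scale `k` with XOR of the indices equal to zero
(the third index is then the XOR of the first two). -/
def scaleForm (k : ℤ) (F0 F1 F2 : ℝ × ℝ → ℝ) : ℝ :=
  ∑' p : ℕ × ℕ, formL k p.1 p.2 (p.1 ^^^ p.2) F0 F1 F2

/-- The closed quadrant. -/
def quadrant : Set (ℝ × ℝ) := Ici 0 ×ˢ Ici 0

/-- The cube of the `L^3` norm on the quadrant. -/
def cube3 (F : ℝ × ℝ → ℝ) : ℝ := ∫ x in quadrant, |F x| ^ 3

/-- Real, bounded, measurable and compactly supported. -/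
def Admissible (F : ℝ × ℝ → ℝ) : Prop :=
  Measurable F ∧ (∃ M : ℝ, ∀ x, |F x| ≤ M) ∧ HasCompactSupport F

/-- The second question: a bound uniform in the scales and coefficients. -/
def DyadicBound : Prop :=
  ∃ C : ℝ, ∀ (S : Finset ℤ) (ε : ℤ → ℝ), (∀ k ∈ S, |ε k| ≤ 1) →
    ∀ F0 F1 F2 : ℝ × ℝ → ℝ, Admissible F0 → Admissible F1 → Admissible F2 →
      |∑ k ∈ S, ε k * scaleForm k F0 F1 F2| ≤
        C * (cube3 F0 ^ (1 / 3 : ℝ) * cube3 F1 ^ (1 / 3 : ℝ) * cube3 F2 ^ (1 / 3 : ℝ))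

end Vale.Agent.P075
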