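import Vale.Agent.P075.Pins

/-!
P075: the gap of the potential dominates the weighted size.
-/

noncomputable section

namespace Vale.Agent.P075

open Matrix

namespace Gap

variable {ι : Type*} [Fintype ι]

lemma trace_cube_sub (R' R : Matrix ι ι ℝ) :
    trace (R' * R' * R') - trace (R * R * R) - (3 / 2) * trace (R * (R' * R' - R * R)) =
      trace ((R' - R) * R' * (R' - R)) + (1 / 2) * trace ((R' - R) * R * (R' - R)) := by
  have a1 : trace (R' * R * R') = trace (R' * R' * R) := by
    rw [trace_mul_comm, ← Matrix.mul_assoc]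
  have a2 : trace (R * R' * R') = trace (R' * R' * R) := by
    rw [Matrix.mul_assoc, trace_mul_comm]
  have b1 : trace (R * R' * R) = trace (R * R * R') := by
    rw [trace_mul_comm, ← Matrix.mul_assoc]
  have b2 : trace (R' * R * R) = trace (R * R * R') := by
    rw [Matrix.mul_assoc, trace_mul_comm]
  simp only [Matrix.mul_sub, Matrix.sub_mul, trace_sub, ← Matrix.mul_assoc, a1, a2, b1, b2]
  ring

lemma sand_nonneg {M X : Matrix ι ι ℝ} (hM : M.PosSemidef) (hX : Xᵀ = X) :
    0 ≤ trace (X * M * X) := by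
  have h := (hM.conjTranspose_mul_mul_same X).trace_nonneg
  rw [conjTranspose_eq_transpose_of_trivial, hX] at h
  exact h

lemma cross_le {M D L : Matrix ι ι ℝ} (hM : M.PosSemidef) (hD : Dᵀ = D) (hL : Lᵀ = L) (ε : ℝ) :
    2 * ε * trace (D * M * L) ≤ trace (D * M * D) + ε ^ 2 * trace (L * M * L) := by
  have hMt : Mᵀ = M := by
    simpa [IsHermitian, conjTranspose_eq_transpose_of_trivial] using hM.isHermitian
  have h := sand_nonneg hM (X := D - ε • L) (by simp [hD, hL])
  have e : trace (L * M * D) = trace (D * M * L) := by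
    rw [← trace_transpose, transpose_mul, transpose_mul, hD, hMt, hL, Matrix.mul_assoc]
  simp only [Matrix.sub_mul, Matrix.mul_sub, Matrix.smul_mul, Matrix.mul_smul, trace_sub, trace_smul,
    smul_eq_mul, e] at h
  linarith

end Gap

/-- The gap dominates the weighted size. -/
theorem gapFact (hs : SqrtFacts) : GapFact := by
  intro ι _ _ h ζ hh hζ
  obtain ⟨ht, hsq⟩ := hζ
  have hd : (diagonal h)ᵀ = diagonal h := diagonal_transpose h
  set H : Matrix ι ι ℝ := diagonal h with hH
  have hHpsd : H.PosSemidef := PosSemidef.diagonal (fun i => hh i)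
  have hpsd : ∀ s : ℝ, s * s = 1 → ((1 / 2 : ℝ) • (H * (1 + s • ζ) * H)).PosSemidef := by
    intro s hs1
    have e : (1 / 2 : ℝ) • (H * (1 + s • ζ) * H) =
        (1 / 4 : ℝ) • (((1 + s • ζ) * H)ᴴ * ((1 + s • ζ) * H)) := by
      rw [conjTranspose_eq_transpose_of_trivial, transpose_mul, hd]
      simp only [transpose_add, transpose_smul, transpose_one, ht]
      have : (1 + s • ζ) * (1 + s • ζ) = (2 : ℝ) • (1 + s • ζ) := by
        simp only [Matrix.add_mul, Matrix.mul_add, Matrix.one_mul, Matrix.mul_one, Matrix.smul_mul,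
          Matrix.mul_smul, hsq, smul_smul, hs1, one_smul]
        match_scalars <;> nlinarith [hs1]
      rw [Matrix.mul_assoc H _ ((1 + s • ζ) * H), ← Matrix.mul_assoc (1 + s • ζ) (1 + s • ζ) H, this, Matrix.smul_mul, Matrix.mul_smul, smul_smul,
        Matrix.mul_assoc]
      norm_num
    rw [e]
    exact (posSemidef_conjTranspose_mul_self _).smul (by norm_num)
  have hYp : ((1 / 2 : ℝ) • (H * (1 + ζ) * H)).PosSemidef := by
    simpa using hpsd 1 (by norm_num)
  have hYm : ((1 / 2 : ℝ) • (H * (1 - ζ) * H)).PosSemidef := by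
    simpa [sub_eq_add_neg] using hpsd (-1) (by norm_num)
  set Yp := (1 / 2 : ℝ) • (H * (1 + ζ) * H) with hYpdef
  set Ym := (1 / 2 : ℝ) • (H * (1 - ζ) * H) with hYmdef
  obtain ⟨hP, hP2⟩ := (hs ι Yp Yp).1 hYp
  obtain ⟨hN, hN2⟩ := (hs ι Ym Ym).1 hYm
  have hsum : Yp + Ym = H * H := by
    rw [hYpdef, hYmdef, Matrix.mul_add, Matrix.mul_sub, Matrix.add_mul, Matrix.sub_mul,
      Matrix.mul_one]
    module
  have hmono : (H - sqrtM Yp).PosSemidef := by
    refine (hs ι Yp H).2.2 hHpsd hYp ?_
    rwa [← hsum, add_sub_cancel_left]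
  unfold tr32
  set P := sqrtM Yp
  set N := sqrtM Ym
  set R : Matrix ι ι ℝ := (Real.sqrt 2)⁻¹ • H with hR
  have hr2 : (Real.sqrt 2)⁻¹ * (Real.sqrt 2)⁻¹ = (1 / 2 : ℝ) := by
    rw [← mul_inv, Real.mul_self_sqrt zero_le_two, one_div]
  have hR2 : R * R = (1 / 2 : ℝ) • (H * H) := by
    rw [hR, Matrix.smul_mul, Matrix.mul_smul, smul_smul, hr2]
  have hRpsd : R.PosSemidef := hHpsd.smul (inv_nonneg.2 (Real.sqrt_nonneg 2))
  have hRt : Rᵀ = R := by rw [hR, transpose_smul, hd]
  have hPt : Pᵀ = P := by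
    simpa [IsHermitian, conjTranspose_eq_transpose_of_trivial] using hP.isHermitian
  have hNt : Nᵀ = N := by
    simpa [IsHermitian, conjTranspose_eq_transpose_of_trivial] using hN.isHermitian
  have hDt : (P - R)ᵀ = P - R := by rw [transpose_sub, hPt, hRt]
  have hEt : (N - R)ᵀ = N - R := by rw [transpose_sub, hNt, hRt]
  have i1 := Gap.trace_cube_sub P R
  have i2 := Gap.trace_cube_sub N R
  have hlin : trace (R * (P * P - R * R)) + trace (R * (N * N - R * R)) = 0 := by
    rw [← trace_add, ← Matrix.mul_add, hP2, hN2, hR2,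
      show Yp - (1 / 2 : ℝ) • (H * H) + (Ym - (1 / 2 : ℝ) • (H * H)) = 0 by
        rw [← hsum]; module]
    simp
  have hcube : 2 * trace (R * R * R) = (Real.sqrt 2)⁻¹ * ∑ i, h i ^ 3 := by
    rw [hR2, hR, Matrix.smul_mul, Matrix.mul_smul, smul_smul, trace_smul, smul_eq_mul, hH, diagonal_mul_diagonal,
      diagonal_mul_diagonal, trace_diagonal]
    rw [show ∑ i, h i * h i * h i = ∑ i, h i ^ 3 from
      Finset.sum_congr rfl fun i _ => by ring]
    ring
  -- the test matrix
  set L : Matrix ι ι ℝ := Matrix.of fun y u => h y * h u * ζ y u / (h y + h u) with hL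
  have hζs : ∀ y u, ζ u y = ζ y u := fun y u => congrFun (congrFun ht y) u
  have hLt : Lᵀ = L := by
    ext y u
    simp only [hL, transpose_apply, of_apply, hζs y u]
    ring
  have hLHL : trace (L * H * L) ≤ gam h ζ := by
    unfold gam
    simp only [hH, trace, diag_apply, Matrix.mul_apply (M := L * _), mul_diagonal]
    simp only [hL, of_apply]
    refine Finset.sum_le_sum fun y _ => Finset.sum_le_sum fun u _ => ?_
    rw [hζs y u]
    rcases eq_or_lt_of_le (add_nonneg (hh y) (hh u)) with h0 | h0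
    · simp [← h0, add_comm (h u) (h y)]
    · have hq : h u / (h y + h u) ≤ 1 := (div_le_one h0).2 (by linarith [hh y])
      have hg : 0 ≤ ζ y u ^ 2 * (h y ^ 2 * h u ^ 2 / (h y + h u)) := by positivity
      calc h y * h u * ζ y u / (h y + h u) * h u * (h u * h y * ζ y u / (h u + h y))
          = ζ y u ^ 2 * (h y ^ 2 * h u ^ 2 / (h y + h u)) * (h u / (h y + h u)) := by
            rw [add_comm (h u) (h y)]; field_simp
        _ ≤ _ := mul_le_of_le_one_right hg hq
  have hDL : trace ((Yp - (1 / 2 : ℝ) • (H * H)) * L) = (1 / 2) * gam h ζ := by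
    rw [hYpdef, Matrix.mul_add, Matrix.add_mul, Matrix.mul_one, smul_add, add_sub_cancel_left,
      Matrix.smul_mul, trace_smul, smul_eq_mul]
    congr 1
    unfold gam
    simp only [hH, trace, diag_apply, Matrix.mul_apply (N := L), mul_diagonal, diagonal_mul]
    simp only [hL, of_apply]
    refine Finset.sum_congr rfl fun y _ => Finset.sum_congr rfl fun u _ => ?_
    rw [hζs y u, add_comm (h u) (h y)]
    ring
  have hsplit : trace ((Yp - (1 / 2 : ℝ) • (H * H)) * L) =
      trace ((P - R) * P * L) + trace ((P - R) * R * L) := by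
    rw [← hP2, ← hR2, show P * P - R * R = (P - R) * P + R * (P - R) by
      rw [Matrix.sub_mul, Matrix.mul_sub]; abel, Matrix.add_mul, trace_add]
    congr 1
    rw [← trace_transpose, transpose_mul, transpose_mul, hDt, hRt, hLt, trace_mul_comm,
      Matrix.mul_assoc]
  have c1 := Gap.cross_le hP hDt hLt (1 / 4)
  have c2 := Gap.cross_le hRpsd hDt hLt (1 / 4)
  have p1 := Gap.sand_nonneg hmono hLt
  rw [Matrix.mul_sub, Matrix.sub_mul, trace_sub] at p1
  have hLRL : trace (L * R * L) ≤ trace (L * H * L) := by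
    have hn := Gap.sand_nonneg hHpsd hLt
    rw [hR, Matrix.mul_smul, Matrix.smul_mul, trace_smul, smul_eq_mul]
    refine mul_le_of_le_one_left hn (inv_le_one_of_one_le₀ ?_)
    exact Real.one_le_sqrt.2 one_le_two
  have nP := Gap.sand_nonneg hP hDt
  have nR := Gap.sand_nonneg hRpsd hDt
  have nN := Gap.sand_nonneg hN hEt
  have nRN := Gap.sand_nonneg hRpsd hEt
  have key : gam h ζ ≤ 16 * (trace (P * P * P) + trace (N * N * N) - 2 * trace (R * R * R)) := by
    linarith
  have hnn : 0 ≤ trace (P * P * P) + trace (N * N * N) - 2 * trace (R * R * R) := by linarith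
  have hfac : Real.sqrt 2 * (trace (P * P * P) + trace (N * N * N)) - ∑ i, h i ^ 3 =
      Real.sqrt 2 * (trace (P * P * P) + trace (N * N * N) - 2 * trace (R * R * R)) := by
    rw [hcube, mul_sub, ← mul_assoc, mul_inv_cancel₀ (Real.sqrt_ne_zero'.2 two_pos), one_mul]
  rw [hfac]
  nlinarith [mul_le_mul_of_nonneg_right (Real.one_le_sqrt.2 one_le_two) hnn]

end Vale.Agent.P075
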