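import Vale.Agent.P075.Pins

/-!
P075: the bound on a finite grid, by telescoping the step inequality.
-/

noncomputable section

namespace Vale.Agent.P075.Grid

open Matrix

variable {ι : Type} [Fintype ι] [DecidableEq ι]

lemma tr32_eq {G : Matrix ι ι ℝ} (h : G.IsHermitian) :
    tr32 G = ∑ i, Real.sqrt (h.eigenvalues i) ^ 3 := by
  set U : Matrix ι ι ℝ := (h.eigenvectorUnitary : Matrix ι ι ℝ) with hU
  set D : Matrix ι ι ℝ := diagonal (fun i => Real.sqrt (h.eigenvalues i)) with hD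
  have hUU : Uᵀ * U = 1 := by
    rw [← conjTranspose_eq_transpose_of_trivial, ← star_eq_conjTranspose]
    exact Unitary.coe_star_mul_self h.eigenvectorUnitary
  have hs : sqrtM G = U * D * Uᵀ := by rw [sqrtM, dif_pos h]
  rw [tr32, hs]
  have : U * D * Uᵀ * (U * D * Uᵀ) * (U * D * Uᵀ) = U * (D * D * D * Uᵀ) := by
    simp only [← Matrix.mul_assoc]
    rw [Matrix.mul_assoc (U * D) Uᵀ U, hUU, Matrix.mul_one,
      Matrix.mul_assoc (U * D * D) Uᵀ U, hUU, Matrix.mul_one]
  rw [this, Matrix.trace_mul_comm, Matrix.mul_assoc (D * D * D), hUU, Matrix.mul_one, hD,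
    diagonal_mul_diagonal, diagonal_mul_diagonal, trace_diagonal]
  exact Finset.sum_congr rfl fun i _ => by ring

lemma tr32_nonneg (G : Matrix ι ι ℝ) : 0 ≤ tr32 G := by
  by_cases h : G.IsHermitian
  · rw [tr32_eq h]; positivity
  · have hs : sqrtM G = 0 := by rw [sqrtM, dif_neg h]
    simp [tr32, hs]

lemma phi3_nonneg (A B C : Matrix ι ι ℝ) : 0 ≤ phi3 A B C :=
  add_nonneg (add_nonneg (tr32_nonneg _) (tr32_nonneg _)) (tr32_nonneg _)

lemma tr32_le {G : Matrix ι ι ℝ} (hG : G.PosSemidef) :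
    tr32 G ≤ G.trace * Real.sqrt G.trace := by
  have he : G.trace = ∑ i, hG.1.eigenvalues i := by
    simpa using hG.1.trace_eq_sum_eigenvalues
  have h0 : ∀ i, 0 ≤ hG.1.eigenvalues i := hG.eigenvalues_nonneg
  rw [tr32_eq hG.1, he, Finset.sum_mul]
  refine Finset.sum_le_sum fun i _ => ?_
  have := Real.sq_sqrt (h0 i)
  rw [pow_succ, this]
  exact mul_le_mul_of_nonneg_left
    (Real.sqrt_le_sqrt (Finset.single_le_sum (fun j _ => h0 j) (Finset.mem_univ i))) (h0 i)

omit [DecidableEq ι] in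
lemma psd_gram (A B : Matrix ι ι ℝ) : (Aᵀ * A + B * Bᵀ).PosSemidef := by
  refine Matrix.PosSemidef.add ?_ ?_
  · simpa [conjTranspose_eq_transpose_of_trivial] using posSemidef_conjTranspose_mul_self A
  · simpa [conjTranspose_eq_transpose_of_trivial] using posSemidef_self_mul_conjTranspose B

lemma halfSign_eq : halfSign ι = diagonal (Sum.elim (fun _ => 1) (fun _ => -1)) := by
  ext s t
  rcases s with s | s <;> rcases t with t | t <;> by_cases h : s = t <;>
    simp [halfSign, h]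

lemma trace_three {κ : Type} [Fintype κ] [DecidableEq κ] (A B C : Matrix κ κ ℝ) (z : κ → ℝ) :
    Matrix.trace (A * diagonal z * B * diagonal z * C * diagonal z) =
      ∑ s, ∑ t, ∑ u, A s t * B t u * C u s * (z s * z t * z u) := by
  simp only [Matrix.trace, diag, ↓mul_diagonal, Matrix.mul_apply, Finset.sum_mul]
  refine Finset.sum_congr rfl fun s _ => ?_
  rw [Finset.sum_comm]
  exact Finset.sum_congr rfl fun t _ => Finset.sum_congr rfl fun u _ => by ring

/-- The step constant is positive. -/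
lemma step_pos {K : ℝ} (hK : ∀ (ι : Type) [Fintype ι] [DecidableEq ι]
    (A B C : Matrix (ι ⊕ ι) (ι ⊕ ι) ℝ),
    |Matrix.trace (A * halfSign ι * B * halfSign ι * C * halfSign ι)| ≤
      K * (2 * (∑ i : Bool, ∑ j : Bool,
        phi3 (blk A i j) (blk B j (xor i j)) (blk C (xor i j) i)) - phi3 A B C)) : 0 < K := by
  set z : Fin 1 ⊕ Fin 1 → ℝ := Sum.elim (fun _ => 1) (fun _ => 0) with hz
  have key := hK (Fin 1) (diagonal z) (diagonal z) (diagonal z)
  have hl : Matrix.trace (diagonal z * halfSign (Fin 1) * diagonal z * halfSign (Fin 1) *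
      diagonal z * halfSign (Fin 1)) = 1 := by
    rw [halfSign_eq, trace_three]
    simp [hz, Fintype.sum_sum_type, diagonal_apply]
  have hone : ∀ X : Matrix (Fin 1) (Fin 1) ℝ, X.PosSemidef →
      tr32 X = X 0 0 * Real.sqrt (X 0 0) := by
    intro X hX
    have h1 : X 0 0 = hX.1.eigenvalues 0 := by
      simpa [Matrix.trace] using hX.1.trace_eq_sum_eigenvalues
    rw [tr32_eq hX.1, Fin.sum_univ_one, h1, pow_succ, Real.sq_sqrt (hX.eigenvalues_nonneg 0)]
  have hc : (6 * Real.sqrt 2 : ℝ) ≤ ∑ i : Bool, ∑ j : Bool,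
      phi3 (blk (diagonal z) i j) (blk (diagonal z) j (xor i j))
        (blk (diagonal z) (xor i j) i) := by
    refine le_trans ?_ (Finset.single_le_sum (fun i _ => Finset.sum_nonneg fun j _ =>
      phi3_nonneg _ _ _) (Finset.mem_univ false))
    refine le_trans ?_ (Finset.single_le_sum (fun j _ => phi3_nonneg _ _ _)
      (Finset.mem_univ false))
    simp only [Bool.false_bne, phi3]
    rw [hone _ (psd_gram _ _)]
    simp [blk, hz, Matrix.mul_apply]
    norm_num
    nlinarith [Real.sqrt_nonneg 2]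
  have hp : phi3 (diagonal z) (diagonal z) (diagonal z) ≤ 6 * Real.sqrt 2 := by
    have h := tr32_le (psd_gram (diagonal z) (diagonal z))
    have ht : (((diagonal z)ᵀ * diagonal z + diagonal z * (diagonal z)ᵀ).trace) = 2 := by
      simp [hz, Fintype.sum_sum_type]
      norm_num
    rw [ht] at h
    rw [phi3]; linarith
  rw [hl] at key
  by_contra hneg
  have : K * (2 * (∑ i : Bool, ∑ j : Bool,
      phi3 (blk (diagonal z) i j) (blk (diagonal z) j (xor i j))
        (blk (diagonal z) (xor i j) i)) - phi3 (diagonal z) (diagonal z) (diagonal z)) ≤ 0 :=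
    mul_nonpos_of_nonpos_of_nonneg (not_lt.1 hneg) (by nlinarith [Real.sqrt_nonneg 2])
  linarith [abs_one (α := ℝ)]

/-- The binary index types of the levels. -/
def T : ℕ → Type
  | 0 => Fin 1
  | k + 1 => T k ⊕ T k

instance instFintypeT : ∀ k, Fintype (T k)
  | 0 => inferInstanceAs (Fintype (Fin 1))
  | k + 1 => @instFintypeSum (T k) (T k) (instFintypeT k) (instFintypeT k)

instance instDecidableEqT : ∀ k, DecidableEq (T k)
  | 0 => inferInstanceAs (DecidableEq (Fin 1))
  | k + 1 => @instDecidableEqSum (T k) (T k) (instDecidableEqT k) (instDecidableEqT k)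

/-- The position inside the interval of the level. -/
def pos : ∀ k, T k → ℕ
  | 0, _ => 0
  | k + 1, p => Sum.elim (fun q => pos k q) (fun q => 2 ^ k + pos k q) p

lemma sum_T : ∀ (k : ℕ) (F : ℕ → ℝ), ∑ p : T k, F (pos k p) = ∑ n ∈ Finset.range (2 ^ k), F n
  | 0, F => by
      show ∑ p : Fin 1, F 0 = _
      simp
  | k + 1, F => by
      show ∑ p : T k ⊕ T k, F (Sum.elim (fun q => pos k q) (fun q => 2 ^ k + pos k q) p) = _
      rw [Fintype.sum_sum_type, pow_succ, mul_two, Finset.sum_range_add]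
      exact congrArg₂ (· + ·) (sum_T k F) (sum_T k fun n => F (2 ^ k + n))

/-- The block of the level at a position. -/
def tBlock (f : ℕ → ℕ → ℝ) (k a b : ℕ) : Matrix (T k) (T k) ℝ :=
  Matrix.of fun p q => f (a * 2 ^ k + pos k p) (b * 2 ^ k + pos k q)

/-- The same, seen as four children. -/
def parentBlock (f : ℕ → ℕ → ℝ) (k a b : ℕ) : Matrix (T k ⊕ T k) (T k ⊕ T k) ℝ :=
  tBlock f (k + 1) a b

@[simp] lemma pos_inl (k : ℕ) (q : T k) : pos (k + 1) (Sum.inl q : T k ⊕ T k) = pos k q := rfl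

@[simp] lemma pos_inr (k : ℕ) (q : T k) :
    pos (k + 1) (Sum.inr q : T k ⊕ T k) = 2 ^ k + pos k q := rfl

lemma blk_parent (f : ℕ → ℕ → ℝ) (k a b : ℕ) (i j : Bool) :
    blk (parentBlock f k a b) i j = tBlock f k (2 * a + i.toNat) (2 * b + j.toNat) := by
  ext p q
  cases i <;> cases j <;>
    · show f (a * 2 ^ (k + 1) + _) (b * 2 ^ (k + 1) + _) = f (_ * 2 ^ k + _) (_ * 2 ^ k + _)
      simp [pow_succ]
      congr 1 <;> ring

lemma gridSign_pos (k : ℕ) (s : T k ⊕ T k) (hlt : ∀ p : T k, pos k p < 2 ^ k) :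
    gridSign k (pos (k + 1) s) = Sum.elim (fun _ => (1 : ℝ)) (fun _ => -1) s := by
  rcases s with s | s <;> simp [gridSign, pos, hlt s]

lemma pos_lt : ∀ (k : ℕ) (p : T k), pos k p < 2 ^ k
  | 0, _ => by simp [pos]
  | k + 1, p => by
      rw [pow_succ]
      rcases (p : T k ⊕ T k) with q | q
      · have := pos_lt k q
        show pos k q < _
        omega
      · have := pos_lt k q
        show 2 ^ k + pos k q < _
        omega

lemma gridTerm_eq (f0 f1 f2 : ℕ → ℕ → ℝ) (k a b : ℕ) :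
    gridTerm f0 f1 f2 k a b = Matrix.trace (parentBlock f0 k a b * halfSign (T k) *
      parentBlock f1 k b (a ^^^ b) * halfSign (T k) *
      parentBlock f2 k (a ^^^ b) a * halfSign (T k)) := by
  rw [halfSign_eq, trace_three, gridTerm, ← sum_T (k + 1)]
  refine Finset.sum_congr rfl fun s _ => ?_
  rw [← sum_T (k + 1)]
  refine Finset.sum_congr rfl fun t _ => ?_
  rw [← sum_T (k + 1)]
  refine Finset.sum_congr rfl fun u _ => ?_
  rw [gridSign_pos k s (pos_lt k), gridSign_pos k t (pos_lt k), gridSign_pos k u (pos_lt k)]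
  rfl

lemma xor_double (a b : ℕ) (i j : Bool) :
    (2 * a + i.toNat) ^^^ (2 * b + j.toNat) = 2 * (a ^^^ b) + (xor i j).toNat := by
  apply Nat.eq_of_testBit_eq
  intro n
  rcases n with - | n
  · cases i <;> cases j <;> simp [Nat.testBit_zero, Nat.add_mod]
  · have h : ∀ (c : ℕ) (r : Bool), (2 * c + r.toNat) / 2 = c := by
      intro c r; cases r <;> simp <;> omega
    rw [Nat.testBit_xor, Nat.testBit_succ, Nat.testBit_succ, Nat.testBit_succ, h, h, h,
      Nat.testBit_xor]

/-- The potential of the level. -/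
def potential (f0 f1 f2 : ℕ → ℕ → ℝ) (k n : ℕ) : ℝ :=
  ∑ a ∈ Finset.range n, ∑ b ∈ Finset.range n,
    phi3 (tBlock f0 k a b) (tBlock f1 k b (a ^^^ b)) (tBlock f2 k (a ^^^ b) a)

lemma sum_double (n : ℕ) (g : ℕ → ℝ) :
    ∑ a ∈ Finset.range (2 * n), g a = ∑ a ∈ Finset.range n, ∑ i : Bool, g (2 * a + i.toNat) := by
  induction n with
  | zero => simp
  | succ n ih =>
    rw [Nat.mul_succ, Finset.sum_range_succ, Finset.sum_range_succ, ih, Finset.sum_range_succ]
    simp
    ring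

lemma step_sum {K : ℝ} (hK : ∀ (ι : Type) [Fintype ι] [DecidableEq ι]
    (A B C : Matrix (ι ⊕ ι) (ι ⊕ ι) ℝ),
    |Matrix.trace (A * halfSign ι * B * halfSign ι * C * halfSign ι)| ≤
      K * (2 * (∑ i : Bool, ∑ j : Bool,
        phi3 (blk A i j) (blk B j (xor i j)) (blk C (xor i j) i)) - phi3 A B C))
    (f0 f1 f2 : ℕ → ℕ → ℝ) (k n : ℕ) :
    |∑ a ∈ Finset.range n, ∑ b ∈ Finset.range n, gridTerm f0 f1 f2 k a b| ≤
      K * (2 * potential f0 f1 f2 k (2 * n) - potential f0 f1 f2 (k + 1) n) := by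
  have hsplit : potential f0 f1 f2 k (2 * n) = ∑ a ∈ Finset.range n, ∑ b ∈ Finset.range n,
      ∑ i : Bool, ∑ j : Bool, phi3 (blk (parentBlock f0 k a b) i j)
        (blk (parentBlock f1 k b (a ^^^ b)) j (xor i j))
        (blk (parentBlock f2 k (a ^^^ b) a) (xor i j) i) := by
    rw [potential, sum_double]
    refine Finset.sum_congr rfl fun a _ => ?_
    rw [Finset.sum_comm (s := Finset.range n)]
    refine Finset.sum_congr rfl fun i _ => ?_
    rw [sum_double]
    refine Finset.sum_congr rfl fun b _ => Finset.sum_congr rfl fun j _ => ?_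
    rw [blk_parent, blk_parent, blk_parent, xor_double]
  have hnext : potential f0 f1 f2 (k + 1) n = ∑ a ∈ Finset.range n, ∑ b ∈ Finset.range n,
      phi3 (parentBlock f0 k a b) (parentBlock f1 k b (a ^^^ b))
        (parentBlock f2 k (a ^^^ b) a) := rfl
  rw [hsplit, hnext]
  rw [Finset.mul_sum, ← Finset.sum_sub_distrib, Finset.mul_sum]
  refine (Finset.abs_sum_le_sum_abs _ _).trans (Finset.sum_le_sum fun a _ => ?_)
  rw [Finset.mul_sum, ← Finset.sum_sub_distrib, Finset.mul_sum]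
  refine (Finset.abs_sum_le_sum_abs _ _).trans (Finset.sum_le_sum fun b _ => ?_)
  rw [gridTerm_eq]
  exact hK (T k) _ _ _

lemma base_term (X : Matrix (T 0) (T 0) ℝ) (Y : Matrix (T 0) (T 0) ℝ) (x y : ℝ)
    (hX : ∀ p q, X p q = x) (hY : ∀ p q, Y p q = y) :
    tr32 (Xᵀ * X + Y * Yᵀ) ≤ 3 * (|x| ^ 3 + |y| ^ 3) := by
  refine (tr32_le (psd_gram X Y)).trans ?_
  have ht : (Xᵀ * X + Y * Yᵀ).trace = x ^ 2 + y ^ 2 := by
    rw [Matrix.trace]
    simp only [diag]
    simp only [Matrix.add_apply, Matrix.mul_apply, transpose_apply, hX, hY, Finset.sum_const,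
      Finset.card_univ]
    have hc : Fintype.card (T 0) = 1 := Fintype.card_fin 1
    rw [hc, one_smul, one_smul, one_smul]
    ring
  rw [ht]
  have hs : Real.sqrt (x ^ 2 + y ^ 2) ≤ |x| + |y| := by
    rw [Real.sqrt_le_left (by positivity)]
    nlinarith [abs_nonneg x, abs_nonneg y, sq_abs x, sq_abs y]
  refine (mul_le_mul_of_nonneg_left hs (by positivity)).trans ?_
  rw [← sq_abs x, ← sq_abs y]
  nlinarith [mul_nonneg (sq_nonneg (|x| - |y|)) (add_nonneg (abs_nonneg x) (abs_nonneg y)),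
    pow_nonneg (abs_nonneg x) 3, pow_nonneg (abs_nonneg y) 3]

lemma xor_swap_sum (M : ℕ) (g : ℕ → ℝ) {a : ℕ} (ha : a < 2 ^ M) :
    ∑ b ∈ Finset.range (2 ^ M), g (a ^^^ b) = ∑ b ∈ Finset.range (2 ^ M), g b := by
  refine Finset.sum_nbij' (fun b => a ^^^ b) (fun b => a ^^^ b) ?_ ?_ ?_ ?_ ?_
  · intro b hb
    simp only [Finset.mem_range] at hb ⊢
    exact Nat.xor_lt_two_pow ha hb
  · intro b hb
    simp only [Finset.mem_range] at hb ⊢
    exact Nat.xor_lt_two_pow ha hb
  · intro b _; simp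
  · intro b _; simp
  · intro b _; rfl

lemma potential_zero (f0 f1 f2 : ℕ → ℕ → ℝ) (M : ℕ) :
    potential f0 f1 f2 0 (2 ^ M) ≤ 6 * ∑ a ∈ Finset.range (2 ^ M), ∑ b ∈ Finset.range (2 ^ M),
      (|f0 a b| ^ 3 + |f1 a b| ^ 3 + |f2 a b| ^ 3) := by
  have hb : ∀ (f : ℕ → ℕ → ℝ) (a b : ℕ) (p q : T 0), tBlock f 0 a b p q = f a b := by
    intro f a b p q; simp [tBlock, pos]
  have hle : potential f0 f1 f2 0 (2 ^ M) ≤ ∑ a ∈ Finset.range (2 ^ M),
      ∑ b ∈ Finset.range (2 ^ M),
        6 * (|f0 a b| ^ 3 + |f1 b (a ^^^ b)| ^ 3 + |f2 (a ^^^ b) a| ^ 3) := by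
    refine Finset.sum_le_sum fun a _ => Finset.sum_le_sum fun b _ => ?_
    have h1 := base_term _ _ _ _ (hb f0 a b) (hb f1 b (a ^^^ b))
    have h2 := base_term _ _ _ _ (hb f1 b (a ^^^ b)) (hb f2 (a ^^^ b) a)
    have h3 := base_term _ _ _ _ (hb f2 (a ^^^ b) a) (hb f0 a b)
    simp only [phi3]
    linarith
  refine hle.trans (le_of_eq ?_)
  simp only [← Finset.mul_sum, Finset.sum_add_distrib]
  congr 2
  · congr 1
    rw [Finset.sum_comm]
    refine Finset.sum_congr rfl fun b hb => ?_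
    simp only [Nat.xor_comm _ b]
    exact xor_swap_sum M (fun c => |f1 b c| ^ 3) (Finset.mem_range.1 hb)
  · rw [Finset.sum_comm (f := fun a b => |f2 a b| ^ 3)]
    refine Finset.sum_congr rfl fun a ha => ?_
    exact xor_swap_sum M (fun c => |f2 c a| ^ 3) (Finset.mem_range.1 ha)

end Vale.Agent.P075.Grid

namespace Vale.Agent.P075

open Grid

theorem gridBound : StepFact → GridBound := by
  rintro ⟨K, hK⟩
  have hK0 : 0 < K := step_pos hK
  refine ⟨K * 6, fun M f0 f1 f2 => ?_⟩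
  set P : ℕ → ℝ := fun k => potential f0 f1 f2 k (2 ^ (M - k)) / (2 : ℝ) ^ k with hP
  have hstep : ∀ k ∈ Finset.range M,
      |∑ a ∈ Finset.range (2 ^ (M - (k + 1))), ∑ b ∈ Finset.range (2 ^ (M - (k + 1))),
        gridTerm f0 f1 f2 k a b| / (2 : ℝ) ^ (k + 1) ≤ K * (P k - P (k + 1)) := by
    intro k hk
    have hk' : M - k = (M - (k + 1)) + 1 := by have := Finset.mem_range.1 hk; omega
    have h := step_sum hK f0 f1 f2 k (2 ^ (M - (k + 1)))
    rw [div_le_iff₀ (by positivity)]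
    refine h.trans (le_of_eq ?_)
    simp only [hP, hk', pow_succ']
    field_simp
  refine (Finset.sum_le_sum hstep).trans ?_
  rw [← Finset.mul_sum, Finset.sum_range_sub', mul_assoc]
  refine mul_le_mul_of_nonneg_left ?_ hK0.le
  have hpos : 0 ≤ P M := div_nonneg
    (Finset.sum_nonneg fun a _ => Finset.sum_nonneg fun b _ => phi3_nonneg _ _ _) (by positivity)
  have h0 : P 0 = potential f0 f1 f2 0 (2 ^ M) := by simp [hP]
  linarith [potential_zero f0 f1 f2 M]

end Vale.Agent.P075
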