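import Vale.Agent.P075.Pins
import Vale.Agent.P075.Key.Dyadic

/-!
P075: the trilinear lemma in eigen-coordinates.
-/

noncomputable section

open Matrix Finset Filter
open scoped Topology

namespace Vale.Agent.P075

open Key

variable {ι : Type} [Fintype ι] [DecidableEq ι]

namespace Key

omit [Fintype ι] [DecidableEq ι] in
lemma sum_slab (A : Matrix ι ι ℝ) (g h : ι → ℝ) (T : Finset ℤ)
    (hT : ∀ i j, min (lev (g i)) (lev (h j)) ∈ T) : ∑ n ∈ T, slab A g h n = A := by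
  ext i j
  simp [Matrix.sum_apply, slab, hT i j]

omit [Fintype ι] [DecidableEq ι] in
lemma sum_slab_le (A : Matrix ι ι ℝ) (g h : ι → ℝ) (T : Finset ℤ)
    (hT : ∀ i j, min (lev (g i)) (lev (h j)) ∈ T) (k : ℤ) :
    ∑ n ∈ T with n ≤ k, slab A g h n = low A g h k := by
  ext i j
  simp [Matrix.sum_apply, slab, low, hT i j]

/-- The form as a function of its three matrices. -/
def tau (ζ1 ζ2 ζ3 A B C : Matrix ι ι ℝ) : ℝ := Matrix.trace (A * ζ1 * B * ζ2 * C * ζ3)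

omit [DecidableEq ι] in
lemma tau_cyc (ζ1 ζ2 ζ3 A B C : Matrix ι ι ℝ) :
    tau ζ1 ζ2 ζ3 A B C = tau ζ3 ζ1 ζ2 C A B := by
  unfold tau
  rw [show A * ζ1 * B * ζ2 * C * ζ3 = (A * ζ1 * B * ζ2) * (C * ζ3) by
    simp only [Matrix.mul_assoc], Matrix.trace_mul_comm]
  simp only [Matrix.mul_assoc]

omit [DecidableEq ι] in
lemma tau_sum (ζ1 ζ2 ζ3 : Matrix ι ι ℝ) (a b c : ℤ → Matrix ι ι ℝ) (S U V : Finset ℤ) :
    tau ζ1 ζ2 ζ3 (∑ n ∈ S, a n) (∑ m ∈ U, b m) (∑ p ∈ V, c p)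
      = ∑ n ∈ S, ∑ m ∈ U, ∑ p ∈ V, tau ζ1 ζ2 ζ3 (a n) (b m) (c p) := by
  simp only [tau, Matrix.sum_mul, Matrix.mul_sum, Matrix.trace_sum]
  rw [sum_comm, sum_congr rfl fun m _ => sum_comm, sum_comm]

lemma refl_contr {ζ : Matrix ι ι ℝ} (h : IsRefl ζ) : Contr ζᵀ := by
  intro v
  refine le_of_eq ?_
  rw [h.1]
  have e : (ζ *ᵥ v) ⬝ᵥ (ζ *ᵥ v) = v ⬝ᵥ v := by
    rw [Matrix.dotProduct_mulVec, ← Matrix.mulVec_transpose, h.1, Matrix.mulVec_mulVec, h.2,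
      Matrix.one_mulVec]
  simpa [dotProduct, sq] using e

omit [DecidableEq ι] in
lemma gam_eq (h : ι → ℝ) (ζ : Matrix ι ι ℝ) : gam h ζ = energy ζ h := rfl

lemma sum3_swap (S T U : Finset ℤ) (F : ℤ → ℤ → ℤ → ℝ) :
    ∑ a ∈ S, ∑ b ∈ T, ∑ c ∈ U, F a b c = ∑ b ∈ T, ∑ a ∈ S, ∑ c ∈ U, F a b c := sum_comm

lemma bound_pos {h1 h2 h3 : ι → ℝ} {ζ1 ζ2 ζ3 A B C : Matrix ι ι ℝ}
    (p1 : ∀ i, 0 < h1 i) (p2 : ∀ i, 0 < h2 i) (p3 : ∀ i, 0 < h3 i)
    (r1 : IsRefl ζ1) (r2 : IsRefl ζ2) (r3 : IsRefl ζ3)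
    (a1 : ColBound A h1) (a3 : ColBound Aᵀ h3) (b2 : ColBound B h2) (b1 : ColBound Bᵀ h1)
    (c3 : ColBound C h3) (c2 : ColBound Cᵀ h2) :
    |tau ζ1 ζ2 ζ3 A B C| ≤ 160 * (gam h1 ζ1 + gam h2 ζ2 + gam h3 ζ3) := by
  classical
  set T : Finset ℤ := univ.image (fun i => lev (h1 i)) ∪
    (univ.image (fun i => lev (h2 i)) ∪ univ.image (fun i => lev (h3 i))) with hT
  have t1 : ∀ i, lev (h1 i) ∈ T := fun i => by simp [hT]
  have t2 : ∀ i, lev (h2 i) ∈ T := fun i => by simp [hT]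
  have t3 : ∀ i, lev (h3 i) ∈ T := fun i => by simp [hT]
  have tA : ∀ i j, min (lev (h3 i)) (lev (h1 j)) ∈ T := fun i j => by
    rcases min_choice (lev (h3 i)) (lev (h1 j)) with e | e <;> rw [e]
    exacts [t3 i, t1 j]
  have tB : ∀ i j, min (lev (h1 i)) (lev (h2 j)) ∈ T := fun i j => by
    rcases min_choice (lev (h1 i)) (lev (h2 j)) with e | e <;> rw [e]
    exacts [t1 i, t2 j]
  have tC : ∀ i j, min (lev (h2 i)) (lev (h3 j)) ∈ T := fun i j => by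
    rcases min_choice (lev (h2 i)) (lev (h3 j)) with e | e <;> rw [e]
    exacts [t2 i, t3 j]
  set a := slab A h3 h1
  set b := slab B h1 h2
  set c := slab C h2 h3
  set F : ℤ → ℤ → ℤ → ℝ := fun n m p => tau ζ1 ζ2 ζ3 (a n) (b m) (c p) with hF
  have eA : ∀ k, ∑ n ∈ T with n ≤ k, a n = low A h3 h1 k := sum_slab_le A h3 h1 T tA
  have eB : ∀ k, ∑ n ∈ T with n ≤ k, b n = low B h1 h2 k := sum_slab_le B h1 h2 T tB
  have eC : ∀ k, ∑ n ∈ T with n ≤ k, c n = low C h2 h3 k := sum_slab_le C h2 h3 T tC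
  have hfull : tau ζ1 ζ2 ζ3 A B C = ∑ n ∈ T, ∑ m ∈ T, ∑ p ∈ T, F n m p := by
    conv_lhs => rw [← sum_slab A h3 h1 T tA, ← sum_slab B h1 h2 T tB, ← sum_slab C h2 h3 T tC]
    exact tau_sum ζ1 ζ2 ζ3 a b c T T T
  have hsplit : ∑ n ∈ T, ∑ m ∈ T, ∑ p ∈ T, F n m p
      = ∑ m ∈ T, (∑ n ∈ T with n ≤ m, ∑ p ∈ T with p ≤ m, F n m p)
        + ∑ n ∈ T, (∑ m ∈ T with m ≤ n - 1, ∑ p ∈ T with p ≤ n, F n m p)
        + ∑ p ∈ T, (∑ n ∈ T with n ≤ p - 1, ∑ m ∈ T with m ≤ p - 1, F n m p) := by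
    have e1 : ∑ m ∈ T, (∑ n ∈ T with n ≤ m, ∑ p ∈ T with p ≤ m, F n m p)
        = ∑ n ∈ T, ∑ m ∈ T, ∑ p ∈ T, if n ≤ m ∧ p ≤ m then F n m p else 0 := by
      simp only [sum_filter]
      rw [sum_comm]
      refine sum_congr rfl fun n _ => sum_congr rfl fun m _ => ?_
      by_cases h : n ≤ m <;> simp [h]
    have e2 : ∑ n ∈ T, (∑ m ∈ T with m ≤ n - 1, ∑ p ∈ T with p ≤ n, F n m p)
        = ∑ n ∈ T, ∑ m ∈ T, ∑ p ∈ T, if m ≤ n - 1 ∧ p ≤ n then F n m p else 0 := by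
      simp only [sum_filter]
      refine sum_congr rfl fun n _ => sum_congr rfl fun m _ => ?_
      by_cases h : m ≤ n - 1 <;> simp [h]
    have e3 : ∑ p ∈ T, (∑ n ∈ T with n ≤ p - 1, ∑ m ∈ T with m ≤ p - 1, F n m p)
        = ∑ n ∈ T, ∑ m ∈ T, ∑ p ∈ T, if n ≤ p - 1 ∧ m ≤ p - 1 then F n m p else 0 := by
      simp only [sum_filter]
      rw [sum_comm]
      refine sum_congr rfl fun n _ => ?_
      conv_rhs => rw [sum_comm]
      refine sum_congr rfl fun p _ => ?_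
      by_cases h : n ≤ p - 1 <;> simp [h]
    rw [e1, e2, e3, ← sum_add_distrib, ← sum_add_distrib]
    refine sum_congr rfl fun n _ => ?_
    rw [← sum_add_distrib, ← sum_add_distrib]
    refine sum_congr rfl fun m _ => ?_
    rw [← sum_add_distrib, ← sum_add_distrib]
    refine sum_congr rfl fun p _ => ?_
    by_cases hb' : n ≤ m ∧ p ≤ m
    · rw [if_pos hb', if_neg (by omega), if_neg (by omega), add_zero, add_zero]
    · by_cases ha' : m ≤ n - 1 ∧ p ≤ n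
      · rw [if_neg hb', if_pos ha', if_neg (by omega), zero_add, add_zero]
      · rw [if_neg hb', if_neg ha', if_pos (by omega), zero_add, zero_add]
  have single : ∀ (f : ℤ → Matrix ι ι ℝ) (k : ℤ), ∑ q ∈ ({k} : Finset ℤ), f q = f k :=
    fun f k => sum_singleton _ _
  have hB : ∀ m, |∑ n ∈ T with n ≤ m, ∑ p ∈ T with p ≤ m, F n m p|
      ≤ 5 * 2 ^ m * (scale ζ1 h1 m + scale ζ2 h2 m) := by
    intro m
    have e : ∑ n ∈ T with n ≤ m, ∑ p ∈ T with p ≤ m, F n m p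
        = tau ζ1 ζ2 ζ3 (low A h3 h1 m) (b m) (low C h2 h3 m) := by
      rw [← eA, ← eC, ← single b m, tau_sum]
      simp [hF]
    rw [e]
    exact scale_bound p3 p1 p2 a1 a3 b2 b1 c3 c2 (refl_contr r3) r2.1 le_rfl le_rfl
  have hA : ∀ n, |∑ m ∈ T with m ≤ n - 1, ∑ p ∈ T with p ≤ n, F n m p|
      ≤ 5 * 2 ^ n * (scale ζ3 h3 n + scale ζ1 h1 n) := by
    intro n
    have e : ∑ m ∈ T with m ≤ n - 1, ∑ p ∈ T with p ≤ n, F n m p
        = tau ζ1 ζ2 ζ3 (a n) (low B h1 h2 (n - 1)) (low C h2 h3 n) := by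
      rw [← eB, ← eC, ← single a n, tau_sum]
      simp [hF]
    rw [e, tau_cyc]
    exact scale_bound p2 p3 p1 c3 c2 a1 a3 b2 b1 (refl_contr r2) r1.1 le_rfl (by omega)
  have hC : ∀ p, |∑ n ∈ T with n ≤ p - 1, ∑ m ∈ T with m ≤ p - 1, F n m p|
      ≤ 5 * 2 ^ p * (scale ζ2 h2 p + scale ζ3 h3 p) := by
    intro p
    have e : ∑ n ∈ T with n ≤ p - 1, ∑ m ∈ T with m ≤ p - 1, F n m p
        = tau ζ1 ζ2 ζ3 (low A h3 h1 (p - 1)) (low B h1 h2 (p - 1)) (c p) := by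
      rw [← eA, ← eB, ← single c p, tau_sum]
      simp [hF]
    rw [e, tau_cyc, tau_cyc]
    exact scale_bound p1 p2 p3 b2 b1 c3 c2 a1 a3 (refl_contr r1) r3.1 (by omega) (by omega)
  rw [hfull, hsplit]
  refine ((abs_add_le _ _).trans (add_le_add (abs_add_le _ _) le_rfl)).trans ?_
  refine (add_le_add (add_le_add ((abs_sum_le_sum_abs _ _).trans (sum_le_sum fun m _ => hB m))
    ((abs_sum_le_sum_abs _ _).trans (sum_le_sum fun n _ => hA n)))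
    ((abs_sum_le_sum_abs _ _).trans (sum_le_sum fun p _ => hC p))).trans ?_
  have s1 := sum_scale_le (W := ζ1) h1 p1 T
  have s2 := sum_scale_le (W := ζ2) h2 p2 T
  have s3 := sum_scale_le (W := ζ3) h3 p3 T
  simp only [mul_add, sum_add_distrib, mul_assoc (5 : ℝ), ← mul_sum, gam_eq]
  linarith

lemma tendsto_kern {y u : ℝ} (hy : 0 ≤ y) (hu : 0 ≤ u) :
    Tendsto (fun e => kern (y + e) (u + e)) (𝓝[>] 0) (𝓝 (kern y u)) := by
  rcases (add_nonneg hy hu).eq_or_lt with h | h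
  · obtain ⟨rfl, rfl⟩ : y = 0 ∧ u = 0 := ⟨by linarith, by linarith⟩
    have hz : Tendsto (fun e : ℝ => e ^ 3 / 2) (𝓝[>] 0) (𝓝 0) := by
      have hc : Continuous fun e : ℝ => e ^ 3 / 2 := by fun_prop
      simpa using (hc.tendsto 0).mono_left nhdsWithin_le_nhds
    have h0 : kern 0 0 = 0 := by simp [kern]
    rw [h0]
    refine hz.congr' ?_
    filter_upwards [self_mem_nhdsWithin] with e he
    have : (0 : ℝ) < e := he
    simp only [kern, zero_add]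
    field_simp
    ring
  · have hc : ContinuousAt (fun e => kern (y + e) (u + e)) 0 :=
      ContinuousAt.div (by fun_prop) (by fun_prop) (by simpa using h.ne')
    simpa using hc.tendsto.mono_left nhdsWithin_le_nhds

end Key

open Key in
theorem keyFact : KeyFact := by
  refine ⟨160, fun ι _ _ h1 h2 h3 ζ1 ζ2 ζ3 A B C n1 n2 n3 r1 r2 r3 dA dB dC => ?_⟩
  change |tau ζ1 ζ2 ζ3 A B C| ≤ _
  have mono : ∀ {M : Matrix ι ι ℝ} {h : ι → ℝ} {e : ℝ}, (∀ i, 0 ≤ h i) → 0 < e →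
      (∀ v : ι → ℝ, ∑ x, (M *ᵥ v) x ^ 2 ≤ ∑ y, (h y * v y) ^ 2) →
      ColBound M (fun i => h i + e) := by
    intro M h e hn he hM v
    refine (hM v).trans (sum_le_sum fun j _ => ?_)
    rw [mul_pow]
    exact mul_le_mul_of_nonneg_right (pow_le_pow_left₀ (hn j) (by linarith) 2) (sq_nonneg _)
  have hev : ∀ᶠ e in 𝓝[>] (0 : ℝ), |tau ζ1 ζ2 ζ3 A B C| ≤ 160 * (gam (fun i => h1 i + e) ζ1
      + gam (fun i => h2 i + e) ζ2 + gam (fun i => h3 i + e) ζ3) := by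
    filter_upwards [self_mem_nhdsWithin] with e he
    have he' : (0 : ℝ) < e := he
    exact bound_pos (fun i => by linarith [n1 i]) (fun i => by linarith [n2 i])
      (fun i => by linarith [n3 i]) r1 r2 r3 (mono n1 he' dA.1) (mono n3 he' dA.2)
      (mono n2 he' dB.1) (mono n1 he' dB.2) (mono n3 he' dC.1) (mono n2 he' dC.2)
  have ht : ∀ (h : ι → ℝ) (ζ : Matrix ι ι ℝ), (∀ i, 0 ≤ h i) →
      Tendsto (fun e => gam (fun i => h i + e) ζ) (𝓝[>] 0) (𝓝 (gam h ζ)) := fun h ζ hn => by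
    simp only [gam_eq, energy]
    exact tendsto_finsetSum _ fun p _ => tendsto_finsetSum _ fun q _ =>
      (tendsto_kern (hn p) (hn q)).const_mul _
  exact ge_of_tendsto ((((ht h1 ζ1 n1).add (ht h2 ζ2 n2)).add (ht h3 ζ3 n3)).const_mul 160) hev

end Vale.Agent.P075
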