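import Mathlib

/-!
P075: matrix notions for the potential.
-/

noncomputable section

namespace Vale.Agent.P075

open Matrix

variable {ι : Type*} [Fintype ι] [DecidableEq ι]

/-- The positive semidefinite square root (zero for non-Hermitian input). -/
def sqrtM (G : Matrix ι ι ℝ) : Matrix ι ι ℝ :=
  if h : G.IsHermitian then
    (h.eigenvectorUnitary : Matrix ι ι ℝ) *
        diagonal (fun i => Real.sqrt (h.eigenvalues i)) *
      (h.eigenvectorUnitary : Matrix ι ι ℝ)ᵀ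
  else 0

/-- The trace of the `3/2` power. -/
def tr32 (G : Matrix ι ι ℝ) : ℝ := Matrix.trace (sqrtM G * sqrtM G * sqrtM G)

/-- The weighted size of a symmetry `ζ` relative to the diagonal `h`. -/
def gam (h : ι → ℝ) (ζ : Matrix ι ι ℝ) : ℝ :=
  ∑ y, ∑ u, ζ y u ^ 2 * (h y ^ 2 * h u ^ 2 / (h y + h u))

/-- A symmetric orthogonal matrix. -/
def IsRefl (ζ : Matrix ι ι ℝ) : Prop := ζᵀ = ζ ∧ ζ * ζ = 1

/-- `|A v| ≤ |h v|` and `|Aᵀ u| ≤ |g u|`. -/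
def Dominated (A : Matrix ι ι ℝ) (g h : ι → ℝ) : Prop :=
  (∀ v : ι → ℝ, ∑ x, (A *ᵥ v) x ^ 2 ≤ ∑ y, (h y * v y) ^ 2) ∧
    ∀ u : ι → ℝ, ∑ y, (Aᵀ *ᵥ u) y ^ 2 ≤ ∑ x, (g x * u x) ^ 2

/-- The potential of one triangle of blocks. -/
def phi3 (A B C : Matrix ι ι ℝ) : ℝ :=
  tr32 (Aᵀ * A + B * Bᵀ) + tr32 (Bᵀ * B + C * Cᵀ) + tr32 (Cᵀ * C + A * Aᵀ)

/-- The sign matrix of the two halves. -/
def halfSign (ι : Type*) [Fintype ι] [DecidableEq ι] : Matrix (ι ⊕ ι) (ι ⊕ ι) ℝ :=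
  fromBlocks 1 0 0 (-1)

/-- The `(i, j)` block. -/
def blk (A : Matrix (ι ⊕ ι) (ι ⊕ ι) ℝ) (i j : Bool) : Matrix ι ι ℝ :=
  A.submatrix (fun p => if i then Sum.inr p else Sum.inl p)
    (fun q => if j then Sum.inr q else Sum.inl q)

end Vale.Agent.P075
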