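import Vale.Agent.P075.Pins

/-!
P075 Q2, trace calculus for the Schatten potential `tr (Y ^ (3/2)) = tr (√Y ^ 3)`: the square root
is monotone, the gap of the convexity inequality is a sum of squares, the trace inequality
for two summands with constant `√2`, and the two Gram matrices have equal potentials.
-/

namespace Vale.Agent.P075.TraceCalc

open Matrix Vale.Agent.P075
open scoped MatrixOrder

variable {n m : Type*} [Fintype n] [Fintype m]

/-- Real quadratic form of a positive semidefinite matrix. -/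
theorem quad_nonneg {A : Matrix n n ℝ} (hA : A.PosSemidef) (x : n → ℝ) :
    0 ≤ x ⬝ᵥ (A *ᵥ x) := by
  simpa using hA.dotProduct_mulVec_nonneg x

/-- A positive semidefinite square root exists. -/
theorem exists_sqrt [DecidableEq n] {Y : Matrix n n ℝ} (hY : Y.PosSemidef) :
    ∃ R : Matrix n n ℝ, R.PosSemidef ∧ R * R = Y :=
  ⟨CFC.sqrt Y, (CFC.sqrt_nonneg Y).posSemidef, CFC.sqrt_mul_sqrt_self Y hY.nonneg⟩

/-- The square root is monotone. -/
theorem le_of_mul_self_le [DecidableEq n] {R S : Matrix n n ℝ} (hR : R.PosSemidef)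
    (hS : S.PosSemidef) (h : (S * S - R * R).PosSemidef) : (S - R).PosSemidef := by
  have hE : (S - R).IsHermitian := hS.isHermitian.sub hR.isHermitian
  rw [hE.posSemidef_iff_eigenvalues_nonneg]
  intro i
  show 0 ≤ hE.eigenvalues i
  set v : n → ℝ := ⇑(hE.eigenvectorBasis i) with hv
  set l := hE.eigenvalues i with hl
  have hev : (S - R) *ᵥ v = l • v := hE.mulVec_eigenvectorBasis i
  have hv0 : 0 < v ⬝ᵥ v := by
    have h1 : (v : n → ℝ) ≠ 0 := by
      intro h0
      exact hE.eigenvectorBasis.orthonormal.ne_zero i (WithLp.ofLp_injective 2 (by simpa [hv] using h0))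
    exact lt_of_le_of_ne (Finset.sum_nonneg fun j _ => mul_self_nonneg _)
      fun h0 => h1 (dotProduct_self_eq_zero.1 h0.symm)
  have sR : Rᵀ = R := by simpa using hR.isHermitian.eq
  have sS : Sᵀ = S := by simpa using hS.isHermitian.eq
  have sE : (S - R)ᵀ = S - R := by rw [transpose_sub, sR, sS]
  have key : v ⬝ᵥ ((S * S - R * R) *ᵥ v) = l * (v ⬝ᵥ ((S + R) *ᵥ v)) := by
    have e2 : S * S - R * R = (2 : ℝ)⁻¹ • ((S + R) * (S - R) + (S - R) * (S + R)) := by
      rw [← Matrix.ext_iff]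
      intro a b
      simp [Matrix.add_mul, Matrix.mul_add, Matrix.sub_mul, Matrix.mul_sub]
      ring
    have e3 : ∀ w, v ⬝ᵥ ((S - R) *ᵥ w) = l * (v ⬝ᵥ w) := fun w => by
      rw [dotProduct_mulVec, ← mulVec_transpose, sE, hev, smul_dotProduct, smul_eq_mul]
    rw [e2, smul_mulVec, dotProduct_smul, add_mulVec, dotProduct_add, ← mulVec_mulVec,
      ← mulVec_mulVec, e3, hev, mulVec_smul, dotProduct_smul, smul_eq_mul, smul_eq_mul]
    ring
  by_contra hneg
  have hneg : l < 0 := not_le.1 hneg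
  have h0 : 0 ≤ l * (v ⬝ᵥ ((S + R) *ᵥ v)) := key ▸ quad_nonneg h v
  have hr := quad_nonneg hR v
  have hs := quad_nonneg hS v
  have hsum : v ⬝ᵥ ((S + R) *ᵥ v) ≤ 0 := by nlinarith
  rw [add_mulVec, dotProduct_add] at hsum
  have h3 : v ⬝ᵥ ((S - R) *ᵥ v) = l * (v ⬝ᵥ v) := by rw [hev, dotProduct_smul, smul_eq_mul]
  rw [sub_mulVec, dotProduct_sub] at h3
  nlinarith

/-- The form in which monotonicity is used: `R₁² ≤ c² R²` gives `R₁ ≤ c R`. -/
theorem le_smul_of_mul_self_le [DecidableEq n] {R R₁ : Matrix n n ℝ} (hR : R.PosSemidef)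
    (hR₁ : R₁.PosSemidef) {c : ℝ} (hc : 0 ≤ c)
    (h : ((c ^ 2) • (R * R) - R₁ * R₁).PosSemidef) : (c • R - R₁).PosSemidef := by
  refine le_of_mul_self_le hR₁ (hR.smul hc) ?_
  rwa [Matrix.smul_mul, Matrix.mul_smul, smul_smul, ← sq]

/-- Exact expansion of `tr R'³` at `R`, with `D = R' - R`. -/
theorem trace_cube_sub (R R' : Matrix n n ℝ) :
    (R' * R' * R').trace - (R * R * R).trace
        - 3 / 2 * (R * (R' * R' - R * R)).trace
      = ((R' - R) * R' * (R' - R)).trace + 1 / 2 * ((R' - R) * R * (R' - R)).trace := by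
  obtain ⟨D, rfl⟩ : ∃ D, R' = R + D := ⟨R' - R, by abel⟩
  simp only [add_sub_cancel_left, Matrix.add_mul, Matrix.mul_add, Matrix.mul_sub,
    trace_add, trace_sub, ← Matrix.mul_assoc]
  have a1 := trace_mul_cycle R R D
  have a2 := trace_mul_cycle R D R
  have a3 := trace_mul_cycle D R R
  have b1 := trace_mul_cycle R D D
  have b2 := trace_mul_cycle D R D
  have b3 := trace_mul_cycle D D R
  linarith

/-- `tr (D R D) ≥ 0` for symmetric `D` and positive semidefinite `R`. -/
theorem trace_conj_nonneg {R D : Matrix n n ℝ} (hR : R.PosSemidef) (hD : Dᵀ = D) :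
    0 ≤ (D * R * D).trace := by
  have h := (hR.conjTranspose_mul_mul_same D).trace_nonneg
  rwa [conjTranspose_eq_transpose_of_trivial, hD] at h

/-- The convexity gap at a midpoint is a sum of squares. -/
theorem midpoint_gap (R R₁ R₂ : Matrix n n ℝ)
    (hmid : R₁ * R₁ + R₂ * R₂ = (2 : ℝ) • (R * R)) :
    (R₁ * R₁ * R₁).trace + (R₂ * R₂ * R₂).trace - 2 * (R * R * R).trace
      = (((R₁ - R) * R₁ * (R₁ - R)).trace + 1 / 2 * ((R₁ - R) * R * (R₁ - R)).trace)
        + (((R₂ - R) * R₂ * (R₂ - R)).trace + 1 / 2 * ((R₂ - R) * R * (R₂ - R)).trace) := by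
  have h1 := trace_cube_sub R R₁
  have h2 := trace_cube_sub R R₂
  have h3 : (R * (R₁ * R₁ - R * R)).trace + (R * (R₂ * R₂ - R * R)).trace = 0 := by
    rw [← trace_add, ← Matrix.mul_add]
    have e : R₁ * R₁ - R * R + (R₂ * R₂ - R * R) = 0 := by
      rw [sub_add_sub_comm, hmid, two_smul, sub_self]
    rw [e, Matrix.mul_zero, trace_zero]
  linarith

/-- Convexity of `Y ↦ tr Y^(3/2)`: `tr R³ ≤ √2 (tr R₁³ + tr R₂³)` if `R² = R₁² + R₂²`. -/
theorem trace_cube_add_le {R R₁ R₂ : Matrix n n ℝ} (hR : R.PosSemidef) (hR₁ : R₁.PosSemidef)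
    (hR₂ : R₂.PosSemidef) (h : R * R = R₁ * R₁ + R₂ * R₂) :
    (R * R * R).trace ≤ Real.sqrt 2 * ((R₁ * R₁ * R₁).trace + (R₂ * R₂ * R₂).trace) := by
  have hs : Real.sqrt 2 * Real.sqrt 2 = 2 := Real.mul_self_sqrt (by norm_num)
  have hs0 : 0 < Real.sqrt 2 := by positivity
  set T := (Real.sqrt 2)⁻¹ • R with hT
  have hTT : T * T = (2 : ℝ)⁻¹ • (R * R) := by
    rw [hT, Matrix.smul_mul, Matrix.mul_smul, smul_smul, ← mul_inv, hs]
  have hmid : R₁ * R₁ + R₂ * R₂ = (2 : ℝ) • (T * T) := by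
    rw [hTT, smul_smul, ← h]; norm_num
  have g := midpoint_gap T R₁ R₂ hmid
  have hTp : T.PosSemidef := hR.smul (inv_nonneg.2 hs0.le)
  have sym : ∀ {A : Matrix n n ℝ}, A.PosSemidef → (A - T)ᵀ = A - T := fun hA => by
    rw [← conjTranspose_eq_transpose_of_trivial]
    exact (hA.isHermitian.sub hTp.isHermitian).eq
  have n1 := trace_conj_nonneg hR₁ (sym hR₁)
  have n2 := trace_conj_nonneg hTp (sym hR₁)
  have n3 := trace_conj_nonneg hR₂ (sym hR₂)
  have n4 := trace_conj_nonneg hTp (sym hR₂)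
  have e : (T * T * T).trace = (2 : ℝ)⁻¹ * (Real.sqrt 2)⁻¹ * (R * R * R).trace := by
    rw [hTT, hT, Matrix.smul_mul, Matrix.mul_smul, smul_smul, trace_smul, smul_eq_mul]
  have hle : (Real.sqrt 2)⁻¹ * (R * R * R).trace
      ≤ (R₁ * R₁ * R₁).trace + (R₂ * R₂ * R₂).trace := by rw [e] at g; linarith
  calc (R * R * R).trace
      = Real.sqrt 2 * ((Real.sqrt 2)⁻¹ * (R * R * R).trace) := by field_simp
    _ ≤ _ := mul_le_mul_of_nonneg_left hle hs0.le

/-- A positive semidefinite `R` with `tr (Xᵀ R X) = 0` kills `X`. -/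
theorem mul_eq_zero_of_trace [DecidableEq n] {R : Matrix n n ℝ} (hR : R.PosSemidef)
    {X : Matrix n m ℝ} (h : (Xᵀ * R * X).trace = 0) : R * X = 0 := by
  obtain ⟨C, hC, hCC⟩ := exists_sqrt hR
  have sC : Cᵀ = C := by simpa using hC.isHermitian.eq
  have e : (C * X)ᴴ * (C * X) = Xᵀ * R * X := by
    rw [conjTranspose_eq_transpose_of_trivial, transpose_mul, sC, ← hCC]
    simp only [Matrix.mul_assoc]
  have h0 : C * X = 0 := trace_conjTranspose_mul_self_eq_zero_iff.1 (by rw [e, h])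
  rw [← hCC, Matrix.mul_assoc, h0, Matrix.mul_zero]

/-- If `H² = Sᵀ S` and `R² = S Sᵀ` then `R S = S H`. -/
theorem intertwine [DecidableEq n] [DecidableEq m] {R : Matrix n n ℝ} {H : Matrix m m ℝ}
    {S : Matrix n m ℝ} (hR : R.PosSemidef) (hH : H.PosSemidef) (h1 : R * R = S * Sᵀ)
    (h2 : H * H = Sᵀ * S) : R * S = S * H := by
  have sR : Rᵀ = R := by simpa using hR.isHermitian.eq
  have sH : Hᵀ = H := by simpa using hH.isHermitian.eq
  rw [← sub_eq_zero]
  set X := R * S - S * H with hX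
  have hsyl : R * X + X * H = 0 := by
    rw [hX, Matrix.mul_sub, Matrix.sub_mul, ← Matrix.mul_assoc, h1, Matrix.mul_assoc S Sᵀ S, ← h2,
      Matrix.mul_assoc S H H, Matrix.mul_assoc R S H]
    abel
  have hA := (hR.conjTranspose_mul_mul_same X).trace_nonneg
  have hB := (hH.mul_mul_conjTranspose_same X).trace_nonneg
  rw [conjTranspose_eq_transpose_of_trivial] at hA hB
  have hsum : (Xᵀ * R * X).trace + (X * H * Xᵀ).trace = 0 := by
    rw [trace_mul_comm (X * H) Xᵀ, Matrix.mul_assoc, ← trace_add, ← Matrix.mul_add, hsyl,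
      Matrix.mul_zero, trace_zero]
  have hRX : R * X = 0 := mul_eq_zero_of_trace hR (by linarith)
  have hXH : X * H = 0 := by
    have h' : H * Xᵀ = 0 := mul_eq_zero_of_trace hH (by rw [transpose_transpose]; linarith)
    simpa [sH] using congrArg transpose h'
  have hz : Xᵀ * X = 0 := by
    have e1 : Xᵀ = Sᵀ * R - H * Sᵀ := by simp [hX, sR, sH]
    have e2 : H * (Sᵀ * R) = H * H * Sᵀ := by
      have := congrArg transpose hXH
      rw [transpose_mul, e1, sH, Matrix.mul_sub, transpose_zero, sub_eq_zero,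
        ← Matrix.mul_assoc H H] at this
      exact this
    have e3 : H * (Sᵀ * X) = 0 := by
      rw [hX, Matrix.mul_sub, Matrix.mul_sub, ← Matrix.mul_assoc Sᵀ R S,
        ← Matrix.mul_assoc H (Sᵀ * R) S, e2, Matrix.mul_assoc (H * H) Sᵀ S, ← h2,
        ← Matrix.mul_assoc Sᵀ S H, ← h2]
      simp only [Matrix.mul_assoc, sub_self]
    calc Xᵀ * X = Sᵀ * (R * X) - H * (Sᵀ * X) := by
          rw [e1, Matrix.sub_mul, Matrix.mul_assoc, Matrix.mul_assoc]
      _ = 0 := by rw [hRX, e3, Matrix.mul_zero, sub_zero]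
  exact trace_conjTranspose_mul_self_eq_zero_iff.1 (by
    rw [conjTranspose_eq_transpose_of_trivial, hz, trace_zero])

/-- The two Gram matrices have the same trace of the `3/2` power. -/
theorem trace_cube_gram [DecidableEq n] [DecidableEq m] {R : Matrix n n ℝ} {H : Matrix m m ℝ}
    {S : Matrix n m ℝ} (hR : R.PosSemidef) (hH : H.PosSemidef) (h1 : R * R = S * Sᵀ)
    (h2 : H * H = Sᵀ * S) : (R * R * R).trace = (H * H * H).trace := by
  rw [h1, trace_mul_comm, ← Matrix.mul_assoc, intertwine hR hH h1 h2, trace_mul_comm (S * H) Sᵀ,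
    ← Matrix.mul_assoc, ← h2]

theorem sqrtM_spec [DecidableEq n] {G : Matrix n n ℝ} (hG : G.PosSemidef) :
    (sqrtM G).PosSemidef ∧ sqrtM G * sqrtM G = G := by
  have hH := hG.isHermitian
  unfold sqrtM
  rw [dif_pos hH]
  set U : Matrix n n ℝ := (hH.eigenvectorUnitary : Matrix n n ℝ) with hU
  have hUU : Uᵀ * U = 1 := by
    have := Unitary.coe_star_mul_self hH.eigenvectorUnitary
    rwa [star_eq_conjTranspose, conjTranspose_eq_transpose_of_trivial] at this
  refine ⟨?_, ?_⟩
  · have := (PosSemidef.diagonal (n := n) (d := fun i => Real.sqrt (hH.eigenvalues i))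
      fun i => Real.sqrt_nonneg _).mul_mul_conjTranspose_same U
    rwa [conjTranspose_eq_transpose_of_trivial] at this
  · have e : ∀ D : Matrix n n ℝ, U * D * Uᵀ * (U * D * Uᵀ) = U * (D * D) * Uᵀ := fun D => by
      rw [show U * D * Uᵀ * (U * D * Uᵀ) = U * D * (Uᵀ * U) * D * Uᵀ by
        simp only [Matrix.mul_assoc], hUU, Matrix.mul_one, Matrix.mul_assoc U D D]
    rw [e, diagonal_mul_diagonal]
    conv_rhs => rw [hH.spectral_theorem, Unitary.conjStarAlgAut_apply, star_eq_conjTranspose,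
      conjTranspose_eq_transpose_of_trivial]
    congr 3
    funext i
    simpa using Real.mul_self_sqrt (hG.eigenvalues_nonneg i)

theorem eq_of_mul_self_eq [DecidableEq n] {R S : Matrix n n ℝ} (hR : R.PosSemidef)
    (hS : S.PosSemidef) (h : R * R = S * S) : R = S :=
  le_antisymm (le_of_mul_self_le hR hS (by rw [h, sub_self]; exact PosSemidef.zero))
    (le_of_mul_self_le hS hR (by rw [h, sub_self]; exact PosSemidef.zero))

theorem sqrtFacts : SqrtFacts := fun _ _ _ G R =>
  ⟨fun hG => sqrtM_spec hG,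
    fun hR hRG => by
      have hG : G.PosSemidef := by
        rw [← hRG]
        have h := posSemidef_conjTranspose_mul_self R
        rwa [hR.isHermitian.eq] at h
      exact eq_of_mul_self_eq (sqrtM_spec hG).1 hR ((sqrtM_spec hG).2.trans hRG.symm),
    fun hR hG h => le_of_mul_self_le (sqrtM_spec hG).1 hR (by rwa [(sqrtM_spec hG).2])⟩

theorem commFact : CommFact := by
  intro ι κ _ _ _ _ X
  have h1 : (X * Xᵀ).PosSemidef := by simpa using posSemidef_self_mul_conjTranspose X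
  have h2 : (Xᵀ * X).PosSemidef := by simpa using posSemidef_conjTranspose_mul_self X
  exact (trace_cube_gram (sqrtM_spec h1).1 (sqrtM_spec h2).1 (sqrtM_spec h1).2
    (sqrtM_spec h2).2).symm

theorem convexFact : ConvexFact := by
  intro ι _ _ P Q hP hQ
  exact trace_cube_add_le (sqrtM_spec (hP.add hQ)).1 (sqrtM_spec hP).1 (sqrtM_spec hQ).1
    (by rw [(sqrtM_spec (hP.add hQ)).2, (sqrtM_spec hP).2, (sqrtM_spec hQ).2])

end Vale.Agent.P075.TraceCalc
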