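import Vale.Agent.P075.Step
import Vale.Agent.P075.Gap
import Vale.Agent.P075.Key
import Vale.Agent.P075.TraceCalc

/-!
P075: the matrix step with all of its ingredients.
-/

noncomputable section

namespace Vale.Agent.P075

theorem stepBound : StepFact :=
  stepFact TraceCalc.sqrtFacts TraceCalc.commFact TraceCalc.convexFact
    (gapFact TraceCalc.sqrtFacts) keyFact

end Vale.Agent.P075
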