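import Vale.Agent.P075.Defs
import Vale.Agent.P075.Mat

/-!
P075: the interfaces between the blocks of the proof (notes/P075/helper3_proof.md).
-/

noncomputable section

namespace Vale.Agent.P075

open Matrix

/-- Trace calculus: square roots. -/
def SqrtFacts : Prop :=
  ∀ (ι : Type) [Fintype ι] [DecidableEq ι] (G R : Matrix ι ι ℝ),
    (G.PosSemidef → (sqrtM G).PosSemidef ∧ sqrtM G * sqrtM G = G) ∧
    (R.PosSemidef → R * R = G → sqrtM G = R) ∧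
    (R.PosSemidef → G.PosSemidef → (R * R - G).PosSemidef → (R - sqrtM G).PosSemidef)

/-- Trace calculus: `tr32` under transposition of a factor. -/
def CommFact : Prop :=
  ∀ (ι κ : Type) [Fintype ι] [DecidableEq ι] [Fintype κ] [DecidableEq κ] (X : Matrix ι κ ℝ),
    tr32 (Xᵀ * X) = tr32 (X * Xᵀ)

/-- Trace calculus: midpoint convexity. -/
def ConvexFact : Prop :=
  ∀ (ι : Type) [Fintype ι] [DecidableEq ι] (P Q : Matrix ι ι ℝ),
    P.PosSemidef → Q.PosSemidef → tr32 (P + Q) ≤ Real.sqrt 2 * (tr32 P + tr32 Q)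

/-- The gap dominates the weighted size, in an eigenbasis. -/
def GapFact : Prop :=
  ∀ (ι : Type) [Fintype ι] [DecidableEq ι] (h : ι → ℝ) (ζ : Matrix ι ι ℝ),
    (∀ i, 0 ≤ h i) → IsRefl ζ →
      gam h ζ ≤ 20 * (Real.sqrt 2 *
        (tr32 ((1 / 2 : ℝ) • (diagonal h * (1 + ζ) * diagonal h)) +
          tr32 ((1 / 2 : ℝ) • (diagonal h * (1 - ζ) * diagonal h))) - ∑ i, h i ^ 3)

/-- The trilinear lemma, in eigenbases. -/
def KeyFact : Prop :=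
  ∃ K : ℝ, ∀ (ι : Type) [Fintype ι] [DecidableEq ι] (h1 h2 h3 : ι → ℝ)
    (ζ1 ζ2 ζ3 A B C : Matrix ι ι ℝ),
    (∀ i, 0 ≤ h1 i) → (∀ i, 0 ≤ h2 i) → (∀ i, 0 ≤ h3 i) →
    IsRefl ζ1 → IsRefl ζ2 → IsRefl ζ3 →
    Dominated A h3 h1 → Dominated B h1 h2 → Dominated C h2 h3 →
      |Matrix.trace (A * ζ1 * B * ζ2 * C * ζ3)| ≤
        K * (gam h1 ζ1 + gam h2 ζ2 + gam h3 ζ3)

/-- One step of the telescoping: a parent triangle and its four even children. -/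
def StepFact : Prop :=
  ∃ K : ℝ, ∀ (ι : Type) [Fintype ι] [DecidableEq ι] (A B C : Matrix (ι ⊕ ι) (ι ⊕ ι) ℝ),
    |Matrix.trace (A * halfSign ι * B * halfSign ι * C * halfSign ι)| ≤
      K * (2 * (∑ i : Bool, ∑ j : Bool,
        phi3 (blk A i j) (blk B j (xor i j)) (blk C (xor i j) i)) - phi3 A B C)

/-- The block of side `2 ^ k` at position `(a, b)`. -/
def gridBlock (f : ℕ → ℕ → ℝ) (k a b : ℕ) : Matrix (Fin (2 ^ k)) (Fin (2 ^ k)) ℝ :=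
  Matrix.of fun p q => f (a * 2 ^ k + p) (b * 2 ^ k + q)

/-- Plus one on the left half of an interval of length `2 ^ (k + 1)`, minus one on the right. -/
def gridSign (k p : ℕ) : ℝ := if p < 2 ^ k then 1 else -1

/-- The term of scale `k + 1` at the triangle `(a, b, a ^^^ b)` on a grid. -/
def gridTerm (f0 f1 f2 : ℕ → ℕ → ℝ) (k a b : ℕ) : ℝ :=
  ∑ p ∈ Finset.range (2 ^ (k + 1)), ∑ q ∈ Finset.range (2 ^ (k + 1)),
    ∑ r ∈ Finset.range (2 ^ (k + 1)),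
      f0 (a * 2 ^ (k + 1) + p) (b * 2 ^ (k + 1) + q) *
        f1 (b * 2 ^ (k + 1) + q) ((a ^^^ b) * 2 ^ (k + 1) + r) *
        f2 ((a ^^^ b) * 2 ^ (k + 1) + r) (a * 2 ^ (k + 1) + p) *
        (gridSign k p * gridSign k q * gridSign k r)

/-- The bound on a finite grid. -/
def GridBound : Prop :=
  ∃ K : ℝ, ∀ (M : ℕ) (f0 f1 f2 : ℕ → ℕ → ℝ),
    ∑ k ∈ Finset.range M,
      |∑ a ∈ Finset.range (2 ^ (M - (k + 1))), ∑ b ∈ Finset.range (2 ^ (M - (k + 1))),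
        gridTerm f0 f1 f2 k a b| / (2 : ℝ) ^ (k + 1)
      ≤ K * ∑ a ∈ Finset.range (2 ^ M), ∑ b ∈ Finset.range (2 ^ M),
          (|f0 a b| ^ 3 + |f1 a b| ^ 3 + |f2 a b| ^ 3)

/-- The step function of mesh `δ` with values `f` on the square `[0, 2 ^ M δ) ^ 2`. -/
def stepFun (δ : ℝ) (M : ℕ) (f : ℕ → ℕ → ℝ) (x : ℝ × ℝ) : ℝ :=
  if 0 ≤ x.1 ∧ x.1 < 2 ^ M * δ ∧ 0 ≤ x.2 ∧ x.2 < 2 ^ M * δ then
    f ⌊x.1 / δ⌋₊ ⌊x.2 / δ⌋₊
  else 0

/-- Step functions: scales inside the grid are grid sums, finer scales vanish. -/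
def StepEval : Prop :=
  ∀ (j : ℤ) (M : ℕ) (f0 f1 f2 : ℕ → ℕ → ℝ),
    (∀ i : ℤ, i ≤ j → scaleForm i (stepFun ((2 : ℝ) ^ j) M f0) (stepFun ((2 : ℝ) ^ j) M f1)
      (stepFun ((2 : ℝ) ^ j) M f2) = 0) ∧
    ∀ k : ℕ, k < M → scaleForm (j + (k + 1 : ℕ)) (stepFun ((2 : ℝ) ^ j) M f0)
        (stepFun ((2 : ℝ) ^ j) M f1) (stepFun ((2 : ℝ) ^ j) M f2) =
      (2 : ℝ) ^ (2 * j) * ((∑ a ∈ Finset.range (2 ^ (M - (k + 1))),
        ∑ b ∈ Finset.range (2 ^ (M - (k + 1))), gridTerm f0 f1 f2 k a b) / (2 : ℝ) ^ (k + 1))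

/-- From the grid bound to the integral statement. -/
def Analysis : Prop := GridBound → StepEval → DyadicBound

end Vale.Agent.P075
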