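import Vale.Agent.P075.Pins

/-!
P075: one step of the telescoping, from the trace facts, the gap and the trilinear lemma.
-/

noncomputable section

namespace Vale.Agent.P075

open Matrix

variable {ι : Type} [Fintype ι] [DecidableEq ι]

theorem exists_frame {G : Matrix ι ι ℝ} (hG : G.PosSemidef) :
    ∃ (U : Matrix ι ι ℝ) (h : ι → ℝ), Uᵀ * U = 1 ∧ U * Uᵀ = 1 ∧ (∀ i, 0 ≤ h i) ∧
      G = U * diagonal (fun i => h i ^ 2) * Uᵀ := by
  have hh := hG.isHermitian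
  refine ⟨(hh.eigenvectorUnitary : Matrix ι ι ℝ), fun i => Real.sqrt (hh.eigenvalues i),
    ?_, ?_, fun i => Real.sqrt_nonneg _, ?_⟩
  · have := Unitary.coe_star_mul_self hh.eigenvectorUnitary
    simpa [star_eq_conjTranspose, conjTranspose_eq_transpose_of_trivial] using this
  · have := Unitary.coe_mul_star_self hh.eigenvectorUnitary
    simpa [star_eq_conjTranspose, conjTranspose_eq_transpose_of_trivial] using this
  · have h1 : (fun i => Real.sqrt (hh.eigenvalues i) ^ 2) = hh.eigenvalues :=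
      funext fun i => Real.sq_sqrt (hG.eigenvalues_nonneg i)
    rw [h1]
    have h2 := hh.spectral_theorem
    rw [Unitary.conjStarAlgAut_apply] at h2
    simpa [star_eq_conjTranspose, conjTranspose_eq_transpose_of_trivial,
      Function.comp_def] using h2

/-- The left or right injection. -/
def inj (ι : Type) [Fintype ι] [DecidableEq ι] (j : Bool) : Matrix (ι ⊕ ι) ι ℝ :=
  if j then fromRows 0 1 else fromRows 1 0

theorem inj_mul_transpose (j : Bool) :
    inj ι j * (inj ι j)ᵀ =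
      (1 / 2 : ℝ) • (if j then 1 - halfSign ι else 1 + halfSign ι) := by
  cases j <;>
    simp only [inj, if_true, if_false, Bool.false_eq_true, transpose_fromRows,
      fromRows_mul_fromCols, transpose_one, transpose_zero, Matrix.mul_one, Matrix.mul_zero,
      Matrix.zero_mul]
  all_goals
    ext (x | x) (y | y) <;> simp [halfSign, Matrix.one_apply] <;> split_ifs <;> norm_num

theorem transpose_mul_inj (G : Matrix (ι ⊕ ι) (ι ⊕ ι) ℝ) (j : Bool) :
    (inj ι j)ᵀ * G * inj ι j = blk G j j := by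
  obtain ⟨P, Q, R, T, rfl⟩ : ∃ P Q R T, G = fromBlocks P Q R T :=
    ⟨_, _, _, _, (fromBlocks_toBlocks G).symm⟩
  cases j <;>
    simp [inj, blk, transpose_fromRows, fromCols_mul_fromBlocks, fromCols_mul_fromRows] <;>
    ext x y <;> simp

theorem tr32_frame (hS : SqrtFacts) {G U : Matrix ι ι ℝ} {h : ι → ℝ} (hU : Uᵀ * U = 1)
    (hh : ∀ i, 0 ≤ h i) (hG : G = U * diagonal (fun i => h i ^ 2) * Uᵀ) :
    tr32 G = ∑ i, h i ^ 3 := by
  have hR : (U * diagonal h * Uᵀ).PosSemidef := by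
    have := (posSemidef_diagonal_iff.2 hh).mul_mul_conjTranspose_same U
    simpa [conjTranspose_eq_transpose_of_trivial] using this
  have e : ∀ D E : Matrix ι ι ℝ, (U * D * Uᵀ) * (U * E * Uᵀ) = U * (D * E) * Uᵀ := fun D E =>
    calc (U * D * Uᵀ) * (U * E * Uᵀ) = U * D * (Uᵀ * U) * E * Uᵀ := by
          simp only [Matrix.mul_assoc]
      _ = U * (D * E) * Uᵀ := by rw [hU, Matrix.mul_one]; simp only [Matrix.mul_assoc]
  have hRR : (U * diagonal h * Uᵀ) * (U * diagonal h * Uᵀ) = G := by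
    rw [e, diagonal_mul_diagonal, hG]; simp [sq]
  rw [tr32, ((hS ι G _).2.1) hR hRR, e, e, Matrix.trace_mul_comm, ← Matrix.mul_assoc, hU,
    Matrix.one_mul, diagonal_mul_diagonal, diagonal_mul_diagonal, trace_diagonal]
  exact Finset.sum_congr rfl fun i _ => by ring

theorem blk_transpose_mul (A : Matrix (ι ⊕ ι) (ι ⊕ ι) ℝ) (j : Bool) :
    blk (Aᵀ * A) j j =
      (blk A false j)ᵀ * blk A false j + (blk A true j)ᵀ * blk A true j := by
  cases j <;> ext x y <;> simp [blk, Matrix.mul_apply, Fintype.sum_sum_type]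

theorem blk_mul_transpose (B : Matrix (ι ⊕ ι) (ι ⊕ ι) ℝ) (j : Bool) :
    blk (B * Bᵀ) j j =
      blk B j false * (blk B j false)ᵀ + blk B j true * (blk B j true)ᵀ := by
  cases j <;> ext x y <;> simp [blk, Matrix.mul_apply, Fintype.sum_sum_type]

theorem gram_psd {κ μ : Type} [Fintype κ] [Fintype μ] (A : Matrix κ ι ℝ) (B : Matrix ι μ ℝ) :
    (Aᵀ * A + B * Bᵀ).PosSemidef := by
  have h1 := posSemidef_conjTranspose_mul_self A
  have h2 := posSemidef_self_mul_conjTranspose B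
  rw [conjTranspose_eq_transpose_of_trivial] at h1 h2
  exact h1.add h2

/-- One corner: the weighted size is below the decrement of the potential of that corner. -/
theorem corner (hS : SqrtFacts) (hC : CommFact) (hV : ConvexFact) (hP : GapFact)
    (A B : Matrix (ι ⊕ ι) (ι ⊕ ι) ℝ) :
    ∃ (U : Matrix (ι ⊕ ι) (ι ⊕ ι) ℝ) (h : ι ⊕ ι → ℝ), Uᵀ * U = 1 ∧ U * Uᵀ = 1 ∧
      (∀ i, 0 ≤ h i) ∧ Aᵀ * A + B * Bᵀ = U * diagonal (fun i => h i ^ 2) * Uᵀ ∧
      gam h (Uᵀ * halfSign ι * U) ≤ 20 * (2 * (∑ i : Bool, ∑ j : Bool,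
        tr32 ((blk A i j)ᵀ * blk A i j + blk B j (xor i j) * (blk B j (xor i j))ᵀ)) -
          tr32 (Aᵀ * A + B * Bᵀ)) := by
  obtain ⟨U, h, hU1, hU2, hh, hG⟩ := exists_frame (gram_psd A B)
  refine ⟨U, h, hU1, hU2, hh, hG, ?_⟩
  have hsym : (halfSign ι)ᵀ = halfSign ι := by simp [halfSign, fromBlocks_transpose]
  have hsq : halfSign ι * halfSign ι = 1 := by
    simp [halfSign, fromBlocks_multiply, fromBlocks_one]
  have hrefl : IsRefl (Uᵀ * halfSign ι * U) := by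
    refine ⟨by simp [Matrix.transpose_mul, hsym, Matrix.mul_assoc], ?_⟩
    calc Uᵀ * halfSign ι * U * (Uᵀ * halfSign ι * U)
        = Uᵀ * halfSign ι * (U * Uᵀ) * halfSign ι * U := by simp only [Matrix.mul_assoc]
      _ = Uᵀ * (halfSign ι * halfSign ι) * U := by
          rw [hU2, Matrix.mul_one]; simp only [Matrix.mul_assoc]
      _ = 1 := by rw [hsq, Matrix.mul_one, hU1]
  have half : ∀ j : Bool, tr32 ((1 / 2 : ℝ) • (diagonal h *
      (if j then 1 - Uᵀ * halfSign ι * U else 1 + Uᵀ * halfSign ι * U) * diagonal h)) =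
      tr32 (blk (Aᵀ * A + B * Bᵀ) j j) := by
    intro j
    have hx := hC (ι ⊕ ι) ι (diagonal h * Uᵀ * inj ι j)
    have e1 : (diagonal h * Uᵀ * inj ι j)ᵀ * (diagonal h * Uᵀ * inj ι j) =
        blk (Aᵀ * A + B * Bᵀ) j j := by
      rw [← transpose_mul_inj, hG, show diagonal (fun i => h i ^ 2) = diagonal h * diagonal h by
        rw [diagonal_mul_diagonal]; simp [sq]]
      simp only [Matrix.transpose_mul, diagonal_transpose, transpose_transpose, Matrix.mul_assoc]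
    have e2 : (diagonal h * Uᵀ * inj ι j) * (diagonal h * Uᵀ * inj ι j)ᵀ =
        (1 / 2 : ℝ) • (diagonal h *
          (if j then 1 - Uᵀ * halfSign ι * U else 1 + Uᵀ * halfSign ι * U) * diagonal h) := by
      calc _ = diagonal h * (Uᵀ * (inj ι j * (inj ι j)ᵀ) * U) * diagonal h := by
            simp only [Matrix.transpose_mul, diagonal_transpose, transpose_transpose,
              Matrix.mul_assoc]
        _ = _ := by
            rw [inj_mul_transpose]
            cases j <;> simp [Matrix.mul_add, Matrix.add_mul, Matrix.mul_sub, Matrix.sub_mul, hU1]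
    rw [← e2, ← hx, e1]
  have hgap := hP (ι ⊕ ι) h (Uᵀ * halfSign ι * U) hh hrefl
  have h0 := half false
  have h1 := half true
  simp only [if_false, if_true, Bool.false_eq_true] at h0 h1
  rw [h0, h1, ← tr32_frame hS hU1 hh hG] at hgap
  refine hgap.trans ?_
  have hsplit : ∀ j : Bool, Real.sqrt 2 * tr32 (blk (Aᵀ * A + B * Bᵀ) j j) ≤
      2 * ∑ i : Bool,
        tr32 ((blk A i j)ᵀ * blk A i j + blk B j (xor i j) * (blk B j (xor i j))ᵀ) := by
    intro j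
    have hb : blk (Aᵀ * A + B * Bᵀ) j j =
        ((blk A false j)ᵀ * blk A false j + blk B j j * (blk B j j)ᵀ) +
          ((blk A true j)ᵀ * blk A true j + blk B j (!j) * (blk B j (!j))ᵀ) := by
      have : blk (Aᵀ * A + B * Bᵀ) j j = blk (Aᵀ * A) j j + blk (B * Bᵀ) j j := rfl
      rw [this, blk_transpose_mul, blk_mul_transpose]
      cases j <;> simp only [Bool.not_false, Bool.not_true] <;> abel
    rw [hb]
    refine (mul_le_mul_of_nonneg_left (hV ι _ _ (gram_psd _ _) (gram_psd _ _))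
      (Real.sqrt_nonneg 2)).trans (le_of_eq ?_)
    rw [← mul_assoc, Real.mul_self_sqrt (by norm_num)]
    simp [Fintype.sum_bool, add_comm]
  have := hsplit false
  have := hsplit true
  simp only [Fintype.sum_bool] at *
  linarith

theorem dominated_sq {G U V M : Matrix ι ι ℝ} {h : ι → ℝ} (hU : Uᵀ * U = 1) (hV : V * Vᵀ = 1)
    (hG : G = U * diagonal (fun i => h i ^ 2) * Uᵀ) (hM : (G - Mᵀ * M).PosSemidef)
    (v : ι → ℝ) : ∑ x, ((Vᵀ * M * U) *ᵥ v) x ^ 2 ≤ ∑ y, (h y * v y) ^ 2 := by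
  have quad : ∀ (N : Matrix ι ι ℝ) (w : ι → ℝ),
      (N *ᵥ w) ⬝ᵥ (N *ᵥ w) = w ⬝ᵥ ((Nᵀ * N) *ᵥ w) := fun N w => by
    rw [← mulVec_mulVec, dotProduct_mulVec w, vecMul_transpose]
  have sq_sum : ∀ w : ι → ℝ, ∑ x, w x ^ 2 = w ⬝ᵥ w := fun w => by simp [dotProduct, sq]
  have e1 : (Vᵀ * M * U)ᵀ * (Vᵀ * M * U) = Uᵀ * (Mᵀ * M) * U := by
    simp only [Matrix.transpose_mul, transpose_transpose, Matrix.mul_assoc]
    rw [← Matrix.mul_assoc V, hV, Matrix.one_mul]
  have e3 : ∀ N : Matrix ι ι ℝ, v ⬝ᵥ ((Uᵀ * N * U) *ᵥ v) = (U *ᵥ v) ⬝ᵥ (N *ᵥ (U *ᵥ v)) :=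
    fun N => by
      rw [← mulVec_mulVec, ← mulVec_mulVec, dotProduct_mulVec v, vecMul_transpose]
  have e4 : Uᵀ * G * U = diagonal (fun i => h i ^ 2) := by
    rw [hG]
    simp only [Matrix.mul_assoc, hU, Matrix.mul_one]
    rw [← Matrix.mul_assoc, hU, Matrix.one_mul]
  have e2 : (U *ᵥ v) ⬝ᵥ (G *ᵥ (U *ᵥ v)) = ∑ y, (h y * v y) ^ 2 := by
    rw [← e3, e4]
    simp only [dotProduct, mulVec_diagonal]
    exact Finset.sum_congr rfl fun y _ => by ring
  have hpos := hM.dotProduct_mulVec_nonneg (U *ᵥ v)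
  simp only [star_trivial, Matrix.sub_mulVec, dotProduct_sub] at hpos
  rw [sq_sum, quad, e1, e3]
  linarith [e2]

theorem stepFact (hS : SqrtFacts) (hC : CommFact) (hV : ConvexFact) (hP : GapFact)
    (hK : KeyFact) : StepFact := by
  obtain ⟨K0, hK0⟩ := hK
  refine ⟨20 * max K0 0, fun ι => ?_⟩
  intro _ _ A B C
  obtain ⟨U1, h1, a1, b1, p1, g1, l1⟩ := corner hS hC hV hP A B
  obtain ⟨U2, h2, a2, b2, p2, g2, l2⟩ := corner hS hC hV hP B C
  obtain ⟨U3, h3, a3, b3, p3, g3, l3⟩ := corner hS hC hV hP C A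
  have hsym : (halfSign ι)ᵀ = halfSign ι := by simp [halfSign, fromBlocks_transpose]
  have hsq : halfSign ι * halfSign ι = 1 := by
    simp [halfSign, fromBlocks_multiply, fromBlocks_one]
  have refl : ∀ U : Matrix (ι ⊕ ι) (ι ⊕ ι) ℝ, Uᵀ * U = 1 → U * Uᵀ = 1 →
      IsRefl (Uᵀ * halfSign ι * U) := by
    intro U hU1 hU2
    refine ⟨by simp [Matrix.transpose_mul, hsym, Matrix.mul_assoc], ?_⟩
    calc Uᵀ * halfSign ι * U * (Uᵀ * halfSign ι * U)
        = Uᵀ * halfSign ι * (U * Uᵀ) * halfSign ι * U := by simp only [Matrix.mul_assoc]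
      _ = Uᵀ * (halfSign ι * halfSign ι) * U := by
          rw [hU2, Matrix.mul_one]; simp only [Matrix.mul_assoc]
      _ = 1 := by rw [hsq, Matrix.mul_one, hU1]
  have psd : ∀ M : Matrix (ι ⊕ ι) (ι ⊕ ι) ℝ, (Mᵀ * M).PosSemidef := fun M => by
    have := posSemidef_conjTranspose_mul_self M
    rwa [conjTranspose_eq_transpose_of_trivial] at this
  have dom : ∀ (X Y W : Matrix (ι ⊕ ι) (ι ⊕ ι) ℝ) (U V : Matrix (ι ⊕ ι) (ι ⊕ ι) ℝ)
      (g h : ι ⊕ ι → ℝ), Uᵀ * U = 1 → U * Uᵀ = 1 → Vᵀ * V = 1 → V * Vᵀ = 1 →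
      Xᵀ * X + Y * Yᵀ = U * diagonal (fun i => h i ^ 2) * Uᵀ →
      Wᵀ * W + X * Xᵀ = V * diagonal (fun i => g i ^ 2) * Vᵀ →
      Dominated (Vᵀ * X * U) g h := by
    intro X Y W U V g h hU hU' hV1 hV2 eU eV
    refine ⟨fun v => dominated_sq hU hV2 eU ?_ v, fun u => ?_⟩
    · simpa using psd Yᵀ
    · have := dominated_sq (M := Xᵀ) (V := U) hV1 hU' eV (by simpa using psd W) u
      simpa [Matrix.transpose_mul, Matrix.mul_assoc] using this
  have key := hK0 (ι ⊕ ι) h1 h2 h3 (U1ᵀ * halfSign ι * U1) (U2ᵀ * halfSign ι * U2)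
    (U3ᵀ * halfSign ι * U3) (U3ᵀ * A * U1) (U1ᵀ * B * U2) (U2ᵀ * C * U3) p1 p2 p3
    (refl _ a1 b1) (refl _ a2 b2) (refl _ a3 b3)
    (dom A B C U1 U3 h3 h1 a1 b1 a3 b3 g1 g3) (dom B C A U2 U1 h1 h2 a2 b2 a1 b1 g2 g1)
    (dom C A B U3 U2 h2 h3 a3 b3 a2 b2 g3 g2)
  have c1 : ∀ X : Matrix (ι ⊕ ι) (ι ⊕ ι) ℝ, U1 * (U1ᵀ * X) = X := fun X => by
    rw [← Matrix.mul_assoc, b1, Matrix.one_mul]
  have c2 : ∀ X : Matrix (ι ⊕ ι) (ι ⊕ ι) ℝ, U2 * (U2ᵀ * X) = X := fun X => by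
    rw [← Matrix.mul_assoc, b2, Matrix.one_mul]
  have c3 : ∀ X : Matrix (ι ⊕ ι) (ι ⊕ ι) ℝ, U3 * (U3ᵀ * X) = X := fun X => by
    rw [← Matrix.mul_assoc, b3, Matrix.one_mul]
  have htr : Matrix.trace (U3ᵀ * A * U1 * (U1ᵀ * halfSign ι * U1) * (U1ᵀ * B * U2) *
      (U2ᵀ * halfSign ι * U2) * (U2ᵀ * C * U3) * (U3ᵀ * halfSign ι * U3)) =
      Matrix.trace (A * halfSign ι * B * halfSign ι * C * halfSign ι) := by
    have e : U3ᵀ * A * U1 * (U1ᵀ * halfSign ι * U1) * (U1ᵀ * B * U2) *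
        (U2ᵀ * halfSign ι * U2) * (U2ᵀ * C * U3) * (U3ᵀ * halfSign ι * U3) =
        U3ᵀ * (A * halfSign ι * B * halfSign ι * C * halfSign ι) * U3 := by
      simp only [Matrix.mul_assoc, c1, c2, c3]
    rw [e, Matrix.trace_mul_comm, ← Matrix.mul_assoc, b3, Matrix.one_mul]
  rw [htr] at key
  have gnn : ∀ (h : ι ⊕ ι → ℝ) (ζ : Matrix (ι ⊕ ι) (ι ⊕ ι) ℝ), (∀ i, 0 ≤ h i) → 0 ≤ gam h ζ :=
    fun h ζ hh => Finset.sum_nonneg fun y _ => Finset.sum_nonneg fun u _ =>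
      mul_nonneg (sq_nonneg _) (div_nonneg (by positivity) (add_nonneg (hh y) (hh u)))
  have hsum : gam h1 (U1ᵀ * halfSign ι * U1) + gam h2 (U2ᵀ * halfSign ι * U2) +
      gam h3 (U3ᵀ * halfSign ι * U3) ≤ 20 * (2 * (∑ i : Bool, ∑ j : Bool,
        phi3 (blk A i j) (blk B j (xor i j)) (blk C (xor i j) i)) - phi3 A B C) := by
    simp only [phi3, Fintype.sum_bool, Bool.xor_false, Bool.xor_true, Bool.not_false,
      Bool.not_true, Bool.false_xor, Bool.true_xor] at l1 l2 l3 ⊢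
    linarith
  refine key.trans ?_
  refine (mul_le_mul_of_nonneg_right (le_max_left K0 0)
    (add_nonneg (add_nonneg (gnn _ _ p1) (gnn _ _ p2)) (gnn _ _ p3))).trans ?_
  refine (mul_le_mul_of_nonneg_left hsum (le_max_right K0 0)).trans (le_of_eq ?_)
  ring

end Vale.Agent.P075
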