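import Vale.Agent.P075.Pins

/-!
P075: the dyadic form on step functions is a finite sum over a grid.
-/

noncomputable section

namespace Vale.Agent.P075

open MeasureTheory Set

namespace StepEvalAux

/-- Extension by zero outside the grid of side `N`. -/
def pad (N : ℕ) (f : ℕ → ℕ → ℝ) (p q : ℕ) : ℝ := if p < N ∧ q < N then f p q else 0

lemma two_zpow_pos (j : ℤ) : (0 : ℝ) < (2 : ℝ) ^ j := zpow_pos (by norm_num) j

lemma stepFun_pad (j : ℤ) (M : ℕ) (f : ℕ → ℕ → ℝ) {x y : ℝ} (hx : 0 ≤ x) (hy : 0 ≤ y) :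
    stepFun ((2 : ℝ) ^ j) M f (x, y)
      = pad (2 ^ M) f ⌊x / (2 : ℝ) ^ j⌋₊ ⌊y / (2 : ℝ) ^ j⌋₊ := by
  have hd := two_zpow_pos j
  have h : ∀ z : ℝ, 0 ≤ z →
      (z < 2 ^ M * (2 : ℝ) ^ j ↔ ⌊z / (2 : ℝ) ^ j⌋₊ < 2 ^ M) := by
    intro z hz
    rw [Nat.floor_lt (by positivity), div_lt_iff₀ hd]
    push_cast
    exact Iff.rfl
  simp only [stepFun, pad, h x hx, h y hy, hx, hy, true_and]

lemma dyadic_nonneg {k : ℤ} {n : ℕ} {x : ℝ} (hx : x ∈ dyadic k n) : 0 ≤ x :=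
  le_trans (by positivity) hx.1

lemma mem_dyadic_iff (k : ℤ) (n : ℕ) (x : ℝ) :
    x ∈ dyadic k n ↔ 0 ≤ x ∧ ⌊x / (2 : ℝ) ^ k⌋₊ = n := by
  have hd := two_zpow_pos k
  constructor
  · intro hx
    have h0 := dyadic_nonneg hx
    refine ⟨h0, (Nat.floor_eq_iff (by positivity)).2 ⟨?_, ?_⟩⟩
    · rw [le_div_iff₀ hd, mul_comm]; exact hx.1
    · rw [div_lt_iff₀ hd, mul_comm]; exact hx.2
  · rintro ⟨h0, hf⟩
    obtain ⟨h1, h2⟩ := (Nat.floor_eq_iff (by positivity)).1 hf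
    rw [le_div_iff₀ hd, mul_comm] at h1
    rw [div_lt_iff₀ hd, mul_comm] at h2
    exact ⟨h1, h2⟩

lemma two_zpow_add_nat (j : ℤ) (d : ℕ) : (2 : ℝ) ^ (j + (d : ℤ)) = (2 : ℝ) ^ j * 2 ^ d := by
  rw [zpow_add₀ (by norm_num), zpow_natCast]

/-! ### Scales inside the grid -/

lemma cell_facts (j : ℤ) (k n : ℕ) {x : ℝ} (hx : x ∈ dyadic (j + (k + 1 : ℕ)) n) :
    ∃ p < 2 ^ (k + 1), ⌊x / (2 : ℝ) ^ j⌋₊ = n * 2 ^ (k + 1) + p ∧
      haar (j + (k + 1 : ℕ)) n x = gridSign k p := by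
  have hd := two_zpow_pos j
  have h0 := dyadic_nonneg hx
  obtain ⟨h1, h2⟩ := hx
  rw [two_zpow_add_nat] at h1 h2
  have hlo : n * 2 ^ (k + 1) ≤ ⌊x / (2 : ℝ) ^ j⌋₊ := by
    refine Nat.le_floor ?_
    push_cast
    rw [le_div_iff₀ hd]
    linarith
  have hhi : ⌊x / (2 : ℝ) ^ j⌋₊ < n * 2 ^ (k + 1) + 2 ^ (k + 1) := by
    rw [Nat.floor_lt (by positivity), div_lt_iff₀ hd]
    push_cast
    linarith
  have hmid : x < (2 : ℝ) ^ j * 2 ^ (k + 1) * ((n : ℝ) + 1 / 2) ↔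
      ⌊x / (2 : ℝ) ^ j⌋₊ < n * 2 ^ (k + 1) + 2 ^ k := by
    rw [Nat.floor_lt (by positivity), div_lt_iff₀ hd]
    push_cast
    rw [show (2 : ℝ) ^ j * 2 ^ (k + 1) * ((n : ℝ) + 1 / 2)
      = ((n : ℝ) * 2 ^ (k + 1) + 2 ^ k) * (2 : ℝ) ^ j by rw [pow_succ]; ring]
  refine ⟨⌊x / (2 : ℝ) ^ j⌋₊ - n * 2 ^ (k + 1), by omega, by omega, ?_⟩
  unfold haar gridSign
  rw [two_zpow_add_nat]
  by_cases hm : x < (2 : ℝ) ^ j * 2 ^ (k + 1) * ((n : ℝ) + 1 / 2)
  · rw [Set.indicator_of_mem (show x ∈ Ico _ _ from ⟨h1, hm⟩),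
      Set.indicator_of_notMem (fun h => absurd h.1 (not_le.2 hm)),
      if_pos (by have := hmid.1 hm; omega)]
    simp
  · rw [Set.indicator_of_notMem (fun h => hm h.2),
      Set.indicator_of_mem (show x ∈ Ico _ _ from ⟨not_lt.1 hm, h2⟩),
      if_neg (by have := mt hmid.2 hm; omega)]
    simp

/-- The indicator of the cell `p` of the grid. -/
def cellInd (j : ℤ) (p : ℕ) (x : ℝ) : ℝ := (dyadic j p).indicator (fun _ => (1 : ℝ)) x

lemma cellInd_eq (j : ℤ) (p : ℕ) {x : ℝ} (hx : 0 ≤ x) :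
    cellInd j p x = if ⌊x / (2 : ℝ) ^ j⌋₊ = p then 1 else 0 := by
  classical
  simp [cellInd, Set.indicator_apply, mem_dyadic_iff, hx]

lemma integrable_cellInd (j : ℤ) (p : ℕ) : Integrable (cellInd j p) := by
  refine IntegrableOn.integrable_indicator ?_ measurableSet_Ico
  exact integrableOn_const (by unfold dyadic; rw [Real.volume_Ico]; exact ENNReal.ofReal_ne_top)

lemma integral_cellInd (j : ℤ) (k n p : ℕ) (hp : p < 2 ^ (k + 1)) :
    ∫ x in dyadic (j + (k + 1 : ℕ)) n, cellInd j (n * 2 ^ (k + 1) + p) x = (2 : ℝ) ^ j := by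
  have hd := two_zpow_pos j
  have hsub : dyadic j (n * 2 ^ (k + 1) + p) ⊆ dyadic (j + (k + 1 : ℕ)) n := by
    have hp' : (p : ℝ) + 1 ≤ 2 ^ (k + 1) := by exact_mod_cast hp
    unfold dyadic
    rw [two_zpow_add_nat]
    refine Ico_subset_Ico ?_ ?_
    · push_cast
      nlinarith [mul_nonneg hd.le (Nat.cast_nonneg (α := ℝ) p)]
    · push_cast
      nlinarith [mul_le_mul_of_nonneg_left hp' hd.le]
  unfold cellInd
  rw [setIntegral_indicator (s := dyadic (j + (k + 1 : ℕ)) n) (by exact measurableSet_Ico),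
    Set.inter_eq_right.2 hsub, setIntegral_const, smul_eq_mul, mul_one]
  unfold dyadic
  rw [Real.volume_real_Ico_of_le (by nlinarith)]
  ring

lemma prod_setIntegral (s t u : Set ℝ) (a b c : ℝ → ℝ) :
    ∫ x in s ×ˢ t ×ˢ u, a x.1 * (b x.2.1 * c x.2.2) =
      (∫ x in s, a x) * ((∫ x in t, b x) * ∫ x in u, c x) := by
  rw [← setIntegral_prod_mul (μ := (volume : Measure ℝ)) (ν := (volume : Measure ℝ)) b c t u,
    ← setIntegral_prod_mul (μ := (volume : Measure ℝ))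
      (ν := (volume : Measure ℝ).prod (volume : Measure ℝ)) a
      (fun z : ℝ × ℝ => b z.1 * c z.2) s (t ×ˢ u)]
  rw [Measure.volume_eq_prod, Measure.volume_eq_prod]

lemma integrable_cube (j : ℤ) (p q r : ℕ) :
    Integrable fun x : ℝ × ℝ × ℝ => cellInd j p x.1 * (cellInd j q x.2.1 * cellInd j r x.2.2) := by
  rw [Measure.volume_eq_prod, Measure.volume_eq_prod]
  exact (integrable_cellInd j p).mul_prod
    ((integrable_cellInd j q).mul_prod (integrable_cellInd j r))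

/-- The summand of one cube of cells. -/
def term (N : ℕ) (f0 f1 f2 : ℕ → ℕ → ℝ) (k n0 n1 n2 p q r : ℕ) : ℝ :=
  pad N f0 (n0 * 2 ^ (k + 1) + p) (n1 * 2 ^ (k + 1) + q) *
    pad N f1 (n1 * 2 ^ (k + 1) + q) (n2 * 2 ^ (k + 1) + r) *
    pad N f2 (n2 * 2 ^ (k + 1) + r) (n0 * 2 ^ (k + 1) + p) *
    (gridSign k p * gridSign k q * gridSign k r)

lemma formL_step (j : ℤ) (M k n0 n1 n2 : ℕ) (f0 f1 f2 : ℕ → ℕ → ℝ) :
    formL (j + (k + 1 : ℕ)) n0 n1 n2 (stepFun ((2 : ℝ) ^ j) M f0) (stepFun ((2 : ℝ) ^ j) M f1)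
        (stepFun ((2 : ℝ) ^ j) M f2) =
      (2 : ℝ) ^ (2 * j) * ((∑ p ∈ Finset.range (2 ^ (k + 1)), ∑ q ∈ Finset.range (2 ^ (k + 1)),
        ∑ r ∈ Finset.range (2 ^ (k + 1)), term (2 ^ M) f0 f1 f2 k n0 n1 n2 p q r) /
          (2 : ℝ) ^ (k + 1)) := by
  unfold formL
  set P := 2 ^ (k + 1) with hP
  set box := dyadic (j + (k + 1 : ℕ)) n0 ×ˢ dyadic (j + (k + 1 : ℕ)) n1 ×ˢ
    dyadic (j + (k + 1 : ℕ)) n2 with hbox
  have hmeas : MeasurableSet box :=
    measurableSet_Ico.prod (measurableSet_Ico.prod measurableSet_Ico)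
  have hcongr : EqOn
      (fun x : ℝ × ℝ × ℝ => stepFun ((2 : ℝ) ^ j) M f0 (x.1, x.2.1) *
        stepFun ((2 : ℝ) ^ j) M f1 (x.2.1, x.2.2) * stepFun ((2 : ℝ) ^ j) M f2 (x.2.2, x.1) *
        (haar (j + (k + 1 : ℕ)) n0 x.1 * haar (j + (k + 1 : ℕ)) n1 x.2.1 *
          haar (j + (k + 1 : ℕ)) n2 x.2.2))
      (fun x => ∑ p ∈ Finset.range P, ∑ q ∈ Finset.range P, ∑ r ∈ Finset.range P,
        term (2 ^ M) f0 f1 f2 k n0 n1 n2 p q r *
          (cellInd j (n0 * P + p) x.1 *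
            (cellInd j (n1 * P + q) x.2.1 * cellInd j (n2 * P + r) x.2.2))) box := by
    rintro ⟨x, y, z⟩ ⟨hx, hy, hz⟩
    obtain ⟨p, hp, hpf, hps⟩ := cell_facts j k n0 hx
    obtain ⟨q, hq, hqf, hqs⟩ := cell_facts j k n1 hy
    obtain ⟨r, hr, hrf, hrs⟩ := cell_facts j k n2 hz
    have x0 := dyadic_nonneg hx
    have y0 := dyadic_nonneg hy
    have z0 := dyadic_nonneg hz
    simp only [stepFun_pad j M f0 x0 y0, stepFun_pad j M f1 y0 z0, stepFun_pad j M f2 z0 x0,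
      cellInd_eq j _ x0, cellInd_eq j _ y0, cellInd_eq j _ z0, hpf, hqf, hrf, hps, hqs, hrs,
      ← hP, Nat.add_left_cancel_iff, mul_ite, mul_one, mul_zero]
    simp [Finset.sum_ite_eq, hP, hp, hq, hr, term]
  rw [setIntegral_congr_fun hmeas hcongr]
  have hint : ∀ p q r : ℕ, Integrable
      (fun x : ℝ × ℝ × ℝ => term (2 ^ M) f0 f1 f2 k n0 n1 n2 p q r *
        (cellInd j (n0 * P + p) x.1 *
          (cellInd j (n1 * P + q) x.2.1 * cellInd j (n2 * P + r) x.2.2)))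
      (volume.restrict box) := fun p q r => ((integrable_cube j _ _ _).restrict).const_mul _
  rw [integral_finsetSum _ fun p _ => integrable_finsetSum _ fun q _ =>
    integrable_finsetSum _ fun r _ => hint p q r]
  simp only [integral_finsetSum _ fun q _ => integrable_finsetSum _ fun r _ => hint _ q r,
    integral_finsetSum _ fun r _ => hint _ _ r, integral_const_mul]
  rw [Finset.sum_div, Finset.mul_sum, Finset.mul_sum]
  refine Finset.sum_congr rfl fun p hp => ?_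
  rw [Finset.sum_div, Finset.mul_sum, Finset.mul_sum]
  refine Finset.sum_congr rfl fun q hq => ?_
  rw [Finset.sum_div, Finset.mul_sum, Finset.mul_sum]
  refine Finset.sum_congr rfl fun r hr => ?_
  rw [hbox, prod_setIntegral, hP, integral_cellInd j k n0 p (Finset.mem_range.1 hp),
    integral_cellInd j k n1 q (Finset.mem_range.1 hq),
    integral_cellInd j k n2 r (Finset.mem_range.1 hr), two_mul, zpow_add₀ (by norm_num),
    zpow_neg, two_zpow_add_nat]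
  have hd := (two_zpow_pos j).ne'
  field_simp

/-! ### Finer scales -/

lemma floor_of_fine {i j : ℤ} {n : ℕ} (hij : i ≤ j) {x : ℝ} (hx : x ∈ dyadic i n) :
    ⌊x / (2 : ℝ) ^ j⌋₊ = n / 2 ^ (j - i).toNat := by
  obtain ⟨d, rfl⟩ : ∃ d : ℕ, j = i + d := ⟨(j - i).toNat, by omega⟩
  rw [two_zpow_add_nat, ← div_div, show ((2 : ℝ) ^ d) = ((2 ^ d : ℕ) : ℝ) by push_cast; rfl,
    Nat.floor_div_natCast, ((mem_dyadic_iff i n x).1 hx).2]
  congr 2
  omega

lemma integral_haar (i : ℤ) (n : ℕ) : ∫ x in dyadic i n, haar i n x = 0 := by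
  have hd := two_zpow_pos i
  have hint : ∀ a b : ℝ, Integrable ((Ico a b).indicator (fun _ => (1 : ℝ)))
      (volume.restrict (dyadic i n)) := fun a b =>
    (IntegrableOn.integrable_indicator
      (integrableOn_const (by rw [Real.volume_Ico]; exact ENNReal.ofReal_ne_top))
      measurableSet_Ico).restrict
  unfold haar
  rw [integral_sub (hint _ _) (hint _ _), setIntegral_indicator measurableSet_Ico,
    setIntegral_indicator measurableSet_Ico]
  unfold dyadic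
  rw [Ico_inter_Ico, Ico_inter_Ico, setIntegral_const, setIntegral_const,
    max_self, min_eq_right (by nlinarith), max_eq_right (by nlinarith), min_self,
    Real.volume_real_Ico_of_le (by nlinarith), Real.volume_real_Ico_of_le (by nlinarith)]
  simp
  ring

lemma formL_fine (j i : ℤ) (hij : i ≤ j) (M n0 n1 n2 : ℕ) (f0 f1 f2 : ℕ → ℕ → ℝ) :
    formL i n0 n1 n2 (stepFun ((2 : ℝ) ^ j) M f0) (stepFun ((2 : ℝ) ^ j) M f1)
        (stepFun ((2 : ℝ) ^ j) M f2) = 0 := by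
  unfold formL
  set d := 2 ^ (j - i).toNat
  set c := pad (2 ^ M) f0 (n0 / d) (n1 / d) * pad (2 ^ M) f1 (n1 / d) (n2 / d) *
    pad (2 ^ M) f2 (n2 / d) (n0 / d) with hc
  have hmeas : MeasurableSet (dyadic i n0 ×ˢ dyadic i n1 ×ˢ dyadic i n2) :=
    measurableSet_Ico.prod (measurableSet_Ico.prod measurableSet_Ico)
  have hcongr : EqOn
      (fun x : ℝ × ℝ × ℝ => stepFun ((2 : ℝ) ^ j) M f0 (x.1, x.2.1) *
        stepFun ((2 : ℝ) ^ j) M f1 (x.2.1, x.2.2) * stepFun ((2 : ℝ) ^ j) M f2 (x.2.2, x.1) *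
        (haar i n0 x.1 * haar i n1 x.2.1 * haar i n2 x.2.2))
      (fun x => c * (haar i n0 x.1 * (haar i n1 x.2.1 * haar i n2 x.2.2)))
      (dyadic i n0 ×ˢ dyadic i n1 ×ˢ dyadic i n2) := by
    rintro ⟨x, y, z⟩ ⟨hx, hy, hz⟩
    have x0 := dyadic_nonneg hx
    have y0 := dyadic_nonneg hy
    have z0 := dyadic_nonneg hz
    simp only [stepFun_pad j M f0 x0 y0, stepFun_pad j M f1 y0 z0, stepFun_pad j M f2 z0 x0,
      floor_of_fine hij hx, floor_of_fine hij hy, floor_of_fine hij hz]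
    rw [hc]; ring
  rw [setIntegral_congr_fun hmeas hcongr, integral_const_mul, prod_setIntegral, integral_haar]
  simp

lemma term_zero {M k n0 n1 n2 p q r : ℕ} (hk : k < M) (f0 f1 f2 : ℕ → ℕ → ℝ)
    (h : 2 ^ (M - (k + 1)) ≤ n0 ∨ 2 ^ (M - (k + 1)) ≤ n1) :
    term (2 ^ M) f0 f1 f2 k n0 n1 n2 p q r = 0 := by
  have hN : 2 ^ M = 2 ^ (M - (k + 1)) * 2 ^ (k + 1) := by
    rw [← pow_add]; congr 1; omega
  unfold term pad
  rcases h with h | h <;>
    · have := Nat.mul_le_mul_right (2 ^ (k + 1)) h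
      rw [if_neg (show ¬ (n0 * 2 ^ (k + 1) + p < 2 ^ M ∧ n1 * 2 ^ (k + 1) + q < 2 ^ M) by omega)]
      ring

lemma term_grid {M k n0 n1 p q r : ℕ} (hk : k < M) (f0 f1 f2 : ℕ → ℕ → ℝ)
    (h0 : n0 < 2 ^ (M - (k + 1))) (h1 : n1 < 2 ^ (M - (k + 1))) (hp : p < 2 ^ (k + 1))
    (hq : q < 2 ^ (k + 1)) (hr : r < 2 ^ (k + 1)) :
    term (2 ^ M) f0 f1 f2 k n0 n1 (n0 ^^^ n1) p q r =
      f0 (n0 * 2 ^ (k + 1) + p) (n1 * 2 ^ (k + 1) + q) *
        f1 (n1 * 2 ^ (k + 1) + q) ((n0 ^^^ n1) * 2 ^ (k + 1) + r) *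
        f2 ((n0 ^^^ n1) * 2 ^ (k + 1) + r) (n0 * 2 ^ (k + 1) + p) *
        (gridSign k p * gridSign k q * gridSign k r) := by
  have hN : 2 ^ M = 2 ^ (M - (k + 1)) * 2 ^ (k + 1) := by
    rw [← pow_add]; congr 1; omega
  have hb : ∀ n s : ℕ, n < 2 ^ (M - (k + 1)) → s < 2 ^ (k + 1) →
      n * 2 ^ (k + 1) + s < 2 ^ M := fun n s hn hs => by
    have := Nat.mul_le_mul_right (2 ^ (k + 1)) (Nat.succ_le_of_lt hn)
    rw [Nat.succ_mul] at this
    omega
  have h2 := Nat.xor_lt_two_pow h0 h1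
  unfold term pad
  rw [if_pos ⟨hb _ _ h0 hp, hb _ _ h1 hq⟩, if_pos ⟨hb _ _ h1 hq, hb _ _ h2 hr⟩,
    if_pos ⟨hb _ _ h2 hr, hb _ _ h0 hp⟩]

end StepEvalAux

open StepEvalAux in
theorem stepEval : StepEval := by
  intro j M f0 f1 f2
  refine ⟨fun i hi => ?_, fun k hk => ?_⟩
  · simp [scaleForm, formL_fine j i hi]
  · unfold scaleForm
    rw [tsum_eq_sum (s := Finset.range (2 ^ (M - (k + 1))) ×ˢ Finset.range (2 ^ (M - (k + 1)))),
      Finset.sum_product, Finset.sum_div, Finset.mul_sum]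
    · refine Finset.sum_congr rfl fun a ha => ?_
      rw [Finset.sum_div, Finset.mul_sum]
      refine Finset.sum_congr rfl fun b hb => ?_
      rw [formL_step]
      congr 2
      unfold gridTerm
      refine Finset.sum_congr rfl fun p hp => Finset.sum_congr rfl fun q hq =>
        Finset.sum_congr rfl fun r hr => ?_
      exact term_grid hk f0 f1 f2 (Finset.mem_range.1 ha) (Finset.mem_range.1 hb)
        (Finset.mem_range.1 hp) (Finset.mem_range.1 hq) (Finset.mem_range.1 hr)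
    · rintro ⟨a, b⟩ hab
      rw [formL_step]
      have h : 2 ^ (M - (k + 1)) ≤ a ∨ 2 ^ (M - (k + 1)) ≤ b := by
        simp only [Finset.mem_product, Finset.mem_range, not_and_or, not_lt] at hab
        exact hab
      simp [term_zero hk f0 f1 f2 h]

end Vale.Agent.P075
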